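import Mathlib

set_option linter.all false

section

open Finset

namespace Vale.Agent.P057.H829

theorem dvd_of_pow (M' w Q : ℕ) (b : ℤ) (hM : 2 ≤ M') (hQ0 : Q ≠ 0) (hQ : Q < 2 ^ w)
    (h : ((M' ^ (w + 1) : ℕ) : ℤ) ∣ (Q : ℤ) * b) : (M' : ℤ) ∣ b := by
  rcases eq_or_ne b 0 with rfl | hb
  · exact dvd_zero _
  rw [Int.natCast_dvd] at h ⊢
  rw [Int.natAbs_mul, Int.natAbs_natCast] at h
  have hn : b.natAbs ≠ 0 := Int.natAbs_ne_zero.2 hb
  generalize b.natAbs = n at h hn
  have hM0 : M' ≠ 0 := by omega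
  rw [← Nat.factorization_prime_le_iff_dvd hM0 hn]
  intro p hp
  have h1 := (Nat.factorization_le_iff_dvd (pow_ne_zero (w + 1) hM0) (mul_ne_zero hQ0 hn)).2 h p
  rw [Nat.factorization_pow, Nat.factorization_mul hQ0 hn] at h1
  simp only [Finsupp.smul_apply, Finsupp.add_apply, smul_eq_mul] at h1
  have h2 : Q.factorization p < w := by
    have h3 : p ^ Q.factorization p ≤ Q := Nat.ordProj_le p hQ0
    have h4 : 2 ^ Q.factorization p ≤ p ^ Q.factorization p := Nat.pow_le_pow_left hp.two_le _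
    exact (Nat.pow_lt_pow_iff_right (by norm_num)).1 (lt_of_le_of_lt (h4.trans h3) hQ)
  rcases Nat.eq_zero_or_pos (M'.factorization p) with h5 | h5
  · omega
  · have h6 : w * 1 ≤ w * M'.factorization p := Nat.mul_le_mul_left w h5
    have h7 : (w + 1) * M'.factorization p = w * M'.factorization p + M'.factorization p := by ring
    omega

/-- Newton's formula on a window -/
theorem newton (d L : ℕ) (A : ℕ → ℤ) (hA : ∀ s, s + d < L → (fwdDiff 1)^[d] A s = 0) :
    ∀ s < L, A s = ∑ i ∈ Finset.range d, (s.choose i : ℤ) * (fwdDiff 1)^[i] A 0 := by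
  intro s hs
  have hz : ∀ k, d ≤ k → k < L → (fwdDiff 1)^[k] A 0 = 0 := by
    intro k hk hkL
    obtain ⟨m, rfl⟩ := Nat.exists_eq_add_of_le' hk
    rw [Function.iterate_add_apply, fwdDiff_iter_eq_sum_shift]
    apply Finset.sum_eq_zero
    intro j hj
    have hj' := Finset.mem_range.1 hj
    have : (fwdDiff 1)^[d] A (0 + j • 1) = 0 := by
      apply hA
      simp only [smul_eq_mul, mul_one, zero_add]
      omega
    rw [this, smul_zero]
  have h1 := shift_eq_sum_fwdDiff_iter 1 A s 0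
  simp only [smul_eq_mul, mul_one, zero_add, nsmul_eq_mul] at h1
  rw [h1]
  rcases le_total d (s + 1) with hds | hds
  · rw [← Finset.sum_range_add_sum_Ico _ hds]
    rw [add_eq_left]
    apply Finset.sum_eq_zero
    intro k hk
    obtain ⟨h2, h3⟩ := Finset.mem_Ico.1 hk
    rw [hz k h2 (by omega), mul_zero]
  · rw [← Finset.sum_range_add_sum_Ico _ hds]
    symm
    rw [add_eq_left]
    apply Finset.sum_eq_zero
    intro k hk
    obtain ⟨h2, h3⟩ := Finset.mem_Ico.1 hk
    rw [Nat.choose_eq_zero_of_lt (by omega)]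
    simp

/-- a rational polynomial through the window -/
theorem poly (d L : ℕ) (hd : 1 ≤ d) (A : ℕ → ℤ) (c : ℤ)
    (hA : ∀ s, s + d < L → (fwdDiff 1)^[d] A s = 0) :
    ∃ P : Polynomial ℚ, P.degree < d ∧ ∀ s < L, P.eval (s : ℚ) = ((A s - c : ℤ) : ℚ) := by
  refine ⟨(∑ i ∈ Finset.range d, Polynomial.C (((fwdDiff 1)^[i] A 0 : ℤ) / (i.factorial : ℚ)) *
    descPochhammer ℚ i) - Polynomial.C (c : ℚ), ?_, ?_⟩
  · refine lt_of_le_of_lt (Polynomial.degree_sub_le _ _) (max_lt ?_ ?_)
    · refine lt_of_le_of_lt (Polynomial.degree_sum_le _ _) ?_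
      rw [Finset.sup_lt_iff (by exact WithBot.bot_lt_coe d)]
      intro i hi
      refine lt_of_le_of_lt Polynomial.degree_le_natDegree ?_
      have h1 := Polynomial.natDegree_C_mul_le (((fwdDiff 1)^[i] A 0 : ℤ) / (i.factorial : ℚ))
        (descPochhammer ℚ i)
      rw [descPochhammer_natDegree] at h1
      exact_mod_cast lt_of_le_of_lt h1 (Finset.mem_range.1 hi)
    · refine lt_of_le_of_lt Polynomial.degree_C_le ?_
      exact_mod_cast (by omega : 0 < d)
  · intro s hs
    rw [Polynomial.eval_sub, Polynomial.eval_C, Polynomial.eval_finset_sum]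
    push_cast
    congr 1
    rw [newton d L A hA s hs]
    push_cast
    apply Finset.sum_congr rfl
    intro i _
    rw [Polynomial.eval_mul, Polynomial.eval_C, descPochhammer_eval_eq_descFactorial,
      Nat.descFactorial_eq_factorial_mul_choose]
    have : ((i.factorial : ℕ) : ℚ) ≠ 0 := by exact_mod_cast i.factorial_ne_zero
    push_cast
    field_simp

/-- Lagrange with denominators: a value taken `d` times modulo `N` is the only one, up to `Q` -/
theorem lagrange (d L N w : ℕ) (hd : 1 ≤ d) (hw : L ^ (d * d) < 2 ^ w) (A : ℕ → ℤ) (c : ℤ)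
    (hA : ∀ s, s + d < L → (fwdDiff 1)^[d] A s = 0) (T : Finset ℕ) (hT : ∀ t ∈ T, t < L)
    (hTd : T.card = d) (hN : ∀ t ∈ T, (N : ℤ) ∣ A t - c) :
    ∃ Q : ℕ, Q ≠ 0 ∧ Q < 2 ^ w ∧ ∀ s < L, (N : ℤ) ∣ (Q : ℤ) * (A s - c) := by
  obtain ⟨P, hP, hev⟩ := poly d L hd A c hA
  set D : ℕ → ℤ := fun t => ∏ j ∈ T.erase t, ((t : ℤ) - j) with hD
  have hD0 : ∀ t ∈ T, D t ≠ 0 := by
    intro t ht
    rw [hD]
    apply Finset.prod_ne_zero_iff.2
    intro j hj
    have := (Finset.mem_erase.1 hj).1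
    omega
  have hDL : ∀ t ∈ T, |D t| ≤ (L : ℤ) ^ (d - 1) := by
    intro t ht
    rw [hD]
    show |∏ j ∈ T.erase t, ((t : ℤ) - j)| ≤ _
    rw [Finset.abs_prod, ← hTd, ← Finset.card_erase_of_mem ht, ← Finset.prod_const]
    apply Finset.prod_le_prod
    · intro j _
      exact abs_nonneg _
    intro j hj
    have h1 := hT t ht
    have h2 := hT j (Finset.mem_of_mem_erase hj)
    rw [abs_le]
    constructor <;> omega
  have hL1 : 1 ≤ L := by
    obtain ⟨t, ht⟩ := Finset.card_pos.1 (by omega : 0 < T.card)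
    have := hT t ht
    omega
  refine ⟨(∏ t ∈ T, D t).natAbs, ?_, ?_, ?_⟩
  · rw [Int.natAbs_ne_zero]
    exact Finset.prod_ne_zero_iff.2 hD0
  · refine lt_of_le_of_lt ?_ hw
    have h1 : |∏ t ∈ T, D t| ≤ ((L : ℤ) ^ (d - 1)) ^ T.card := by
      rw [Finset.abs_prod, ← Finset.prod_const]
      exact Finset.prod_le_prod (fun i _ => abs_nonneg _) hDL
    have h2 : ((L : ℤ) ^ (d - 1)) ^ T.card ≤ (L : ℤ) ^ (d * d) := by
      rw [hTd, ← pow_mul]
      apply pow_le_pow_right₀
      · exact_mod_cast hL1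
      · exact Nat.mul_le_mul_right d (by omega)
    have h3 := h1.trans h2
    rw [Int.abs_eq_natAbs] at h3
    exact_mod_cast h3
  · intro s hs
    have hkey : (∏ t ∈ T, D t) * (A s - c) = ∑ t ∈ T, (A t - c) *
        ((∏ t' ∈ T.erase t, D t') * ∏ j ∈ T.erase t, ((s : ℤ) - j)) := by
      have hinj : Set.InjOn (fun t : ℕ => (t : ℚ)) (T : Set ℕ) :=
        fun a _ b _ hab => Nat.cast_injective hab
      have h1 := Lagrange.eq_interpolate (s := T) (v := fun t : ℕ => (t : ℚ)) hinj
        (by rw [hTd]; exact hP)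
      have h2 := congrArg (Polynomial.eval (s : ℚ)) h1
      rw [hev s hs, Lagrange.interpolate_apply, Polynomial.eval_finset_sum] at h2
      have h3 : ((∏ t ∈ T, D t : ℤ) : ℚ) * ((A s - c : ℤ) : ℚ) = ∑ t ∈ T, ((A t - c : ℤ) : ℚ) *
        (((∏ t' ∈ T.erase t, D t' : ℤ) : ℚ) * ((∏ j ∈ T.erase t, ((s : ℤ) - j) : ℤ) : ℚ)) := by
        rw [h2, Finset.mul_sum]
        apply Finset.sum_congr rfl
        intro t ht
        rw [Polynomial.eval_mul, Polynomial.eval_C, hev t (hT t ht), Lagrange.basis,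
          Polynomial.eval_prod, ← Finset.mul_prod_erase T D ht]
        have h4 : ∏ j ∈ T.erase t, Polynomial.eval (s : ℚ)
            (Lagrange.basisDivisor ((t : ℕ) : ℚ) ((j : ℕ) : ℚ)) =
            ((D t : ℤ) : ℚ)⁻¹ * ((∏ j ∈ T.erase t, ((s : ℤ) - j) : ℤ) : ℚ) := by
          rw [hD]
          push_cast
          rw [← Finset.prod_inv_distrib, ← Finset.prod_mul_distrib]
          apply Finset.prod_congr rfl
          intro j _
          simp [Lagrange.basisDivisor]
        have h5 : ((D t : ℤ) : ℚ) ≠ 0 := by exact_mod_cast hD0 t ht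
        have h6 : ∏ j ∈ T.erase t, Polynomial.eval (s : ℚ)
            (Lagrange.basisDivisor ((fun t : ℕ => (t : ℚ)) t) ((fun t : ℕ => (t : ℚ)) j)) =
            ((D t : ℤ) : ℚ)⁻¹ * ((∏ j ∈ T.erase t, ((s : ℤ) - j) : ℤ) : ℚ) := h4
        rw [h6, Int.cast_mul]
        field_simp
      exact_mod_cast h3
    have hdvd : (N : ℤ) ∣ (∏ t ∈ T, D t) * (A s - c) := by
      rw [hkey]
      exact Finset.dvd_sum fun t ht => Dvd.dvd.mul_right (hN t ht) _
    rcases Int.natAbs_eq (∏ t ∈ T, D t) with h | h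
    · rw [h] at hdvd
      simpa using hdvd
    · rw [h, neg_mul] at hdvd
      exact (dvd_neg).1 hdvd

open Classical in
theorem hit_poly (d M' L w : ℕ) (hd : 1 ≤ d) (hM : 2 ≤ M') (hdL : d < L)
    (hw : L ^ (d * d) < 2 ^ w)
    (hL : 2 * (d : ℝ) ^ 2 * ((w + 1) * Real.log M') < L) :
    ∃ R : Finset (ZMod (M' ^ (w + 1))), 2 * R.card ≤ M' ^ (w + 1) ∧
      ∀ A : ℕ → ℤ, (∀ s, s + d < L → (fwdDiff 1)^[d] A s = 0) →
        (∀ s < L, ((A s : ℤ) : ZMod (M' ^ (w + 1))) ∉ R) → ∀ s < L, (M' : ℤ) ∣ A s - A 0 := by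
  set M : ℕ := M' ^ (w + 1) with hMdef
  have hM0 : 0 < M := pow_pos (by omega) _
  haveI : NeZero M := ⟨hM0.ne'⟩
  have hMd : d ≤ M := by
    have h1 : L ≤ L ^ (d * d) := Nat.le_self_pow (by positivity) L
    have h2 : 2 ^ w ≤ 2 ^ (w + 1) := Nat.pow_le_pow_right (by norm_num) (by omega)
    have h3 : 2 ^ (w + 1) ≤ M := Nat.pow_le_pow_left hM _
    omega
  let S : (Fin d → ZMod M) → Finset (ZMod M) := fun a =>
    (Finset.range L).image (fun s => ∑ i : Fin d, ((s.choose i : ℕ) : ZMod M) * a i)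
  -- a function of the window which is not constant modulo `M'` has many values
  have hmany : ∀ A : ℕ → ℤ, (∀ s, s + d < L → (fwdDiff 1)^[d] A s = 0) →
      ¬ (∀ s < L, (M' : ℤ) ∣ A s - A 0) →
      L ≤ (d - 1) * ((Finset.range L).image (fun s => ((A s : ℤ) : ZMod M))).card := by
    intro A hA hnc
    by_contra hlt
    push Not at hlt
    obtain ⟨y, hy, hcy⟩ := Finset.exists_lt_card_fiber_of_mul_lt_card_of_maps_to
      (s := Finset.range L) (t := (Finset.range L).image (fun s => ((A s : ℤ) : ZMod M)))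
      (f := fun s => ((A s : ℤ) : ZMod M)) (n := d - 1)
      (fun a ha => Finset.mem_image_of_mem _ ha)
      (by rw [Finset.card_range, mul_comm]; exact hlt)
    obtain ⟨T, hTs, hTd⟩ := Finset.exists_subset_card_eq
      (show d ≤ ((Finset.range L).filter (fun s => ((A s : ℤ) : ZMod M) = y)).card by omega)
    obtain ⟨t0, ht0⟩ := Finset.card_pos.1 (show 0 < T.card by omega)
    have hTm : ∀ t ∈ T, t < L ∧ ((A t : ℤ) : ZMod M) = y := by
      intro t ht
      have := Finset.mem_filter.1 (hTs ht)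
      exact ⟨Finset.mem_range.1 this.1, this.2⟩
    obtain ⟨Q, hQ0, hQ, hdv⟩ := lagrange d L M w hd hw A (A t0) hA T (fun t ht => (hTm t ht).1)
      hTd (fun t ht => by
        rw [← ZMod.intCast_zmod_eq_zero_iff_dvd, Int.cast_sub, (hTm t ht).2, (hTm t0 ht0).2,
          sub_self])
    have hc : ∀ s < L, (M' : ℤ) ∣ A s - A t0 := fun s hs =>
      dvd_of_pow M' w Q _ hM hQ0 hQ (hdv s hs)
    apply hnc
    intro s hs
    have h1 := dvd_sub (hc s hs) (hc 0 (by omega))
    have h2 : A s - A t0 - (A 0 - A t0) = A s - A 0 := by ring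
    rwa [h2] at h1
  by_contra hcon
  push Not at hcon
  let Bad : Finset (Fin d → ZMod M) := Finset.univ.filter (fun a => L ≤ (d - 1) * (S a).card)
  set T : ℕ := M / 2 with hT
  have hcov : (Finset.univ : Finset (Fin T → ZMod M)) ⊆
      Bad.biUnion (fun a => Fintype.piFinset (fun _ => (S a)ᶜ)) := by
    intro f _
    have hc1 : 2 * (Finset.univ.image f).card ≤ M := by
      have h1 : (Finset.univ.image f).card ≤ T :=
        Finset.card_image_le.trans (by rw [Finset.card_univ, Fintype.card_fin])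
      omega
    obtain ⟨A, hA, hav, hnc⟩ := hcon (Finset.univ.image f) hc1
    have hnc' : ¬ (∀ s < L, (M' : ℤ) ∣ A s - A 0) := by
      push Not
      exact hnc
    have hSA : S (fun i => (((fwdDiff 1)^[(i : ℕ)] A 0 : ℤ) : ZMod M)) =
        (Finset.range L).image (fun s => ((A s : ℤ) : ZMod M)) := by
      apply Finset.image_congr
      intro s hs
      have hs' := Finset.mem_range.1 (Finset.mem_coe.1 hs)
      show ∑ i : Fin d, ((s.choose i : ℕ) : ZMod M) * (((fwdDiff 1)^[(i : ℕ)] A 0 : ℤ) : ZMod M) =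
        ((A s : ℤ) : ZMod M)
      rw [newton d L A hA s hs', Finset.sum_range]
      push_cast
      rfl
    rw [Finset.mem_biUnion]
    refine ⟨fun i => (((fwdDiff 1)^[(i : ℕ)] A 0 : ℤ) : ZMod M), ?_, ?_⟩
    · refine Finset.mem_filter.2 ⟨Finset.mem_univ _, ?_⟩
      rw [hSA]
      exact hmany A hA hnc'
    · rw [Fintype.mem_piFinset]
      intro i
      rw [Finset.mem_compl, hSA]
      intro hi
      obtain ⟨s, hs, hse⟩ := Finset.mem_image.1 hi
      apply hav s (Finset.mem_range.1 hs)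
      rw [hse]
      exact Finset.mem_image_of_mem f (Finset.mem_univ i)
  have h1 := (Finset.card_le_card hcov).trans Finset.card_biUnion_le
  rw [Finset.card_univ, Fintype.card_fun, ZMod.card, Fintype.card_fin] at h1
  have hMR : (0 : ℝ) < M := by exact_mod_cast hM0
  have hlogM : Real.log M = (w + 1) * Real.log M' := by
    rw [hMdef]
    push_cast
    rw [Real.log_pow]
    push_cast
    ring
  have hterm : ∀ a ∈ Bad, (((Fintype.piFinset (fun _ : Fin T => (S a)ᶜ)).card : ℕ) : ℝ) <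
      (M : ℝ) ^ T / (M : ℝ) ^ d := by
    intro a ha
    have hq := (Finset.mem_filter.1 ha).2
    rw [Fintype.card_piFinset_const, Finset.card_compl, ZMod.card]
    set q := (S a).card with hqdef
    have hqM : q ≤ M := by
      have := Finset.card_le_univ (S a)
      rwa [ZMod.card] at this
    have hd2 : 2 ≤ d := by
      by_contra hlt
      have : d = 1 := by omega
      subst this
      simp at hq
      omega
    have hdR : (2 : ℝ) ≤ d := by exact_mod_cast hd2
    have hqR : (L : ℝ) ≤ ((d : ℝ) - 1) * q := by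
      have h2 : ((L : ℕ) : ℝ) ≤ (((d - 1) * q : ℕ) : ℝ) := by exact_mod_cast hq
      rw [Nat.cast_mul, Nat.cast_sub hd] at h2
      push_cast at h2
      exact h2
    have hTR : ((M : ℝ) - 1) ≤ 2 * T := by
      have h2 : M ≤ 2 * T + 1 := by omega
      have h3 : (M : ℝ) ≤ ((2 * T + 1 : ℕ) : ℝ) := by exact_mod_cast h2
      push_cast at h3
      linarith only [h3]
    have hMdR : (d : ℝ) ≤ M := by exact_mod_cast hMd
    have hLR : (0 : ℝ) ≤ L := Nat.cast_nonneg L
    have hqR0 : (0 : ℝ) ≤ q := Nat.cast_nonneg q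
    -- `d log M < q T / M`
    have hmain : d * Real.log M * M < q * T := by
      rw [← hlogM] at hL
      -- 2 d^2 log M < L ≤ (d-1) q
      have h2 : 2 * (d : ℝ) ^ 2 * Real.log M < (d - 1) * q := lt_of_lt_of_le hL hqR
      -- multiply
      have h3 : (2 * (d : ℝ) ^ 2 * Real.log M) * M < ((d - 1) * q) * M :=
        mul_lt_mul_of_pos_right h2 hMR
      have h4 : ((d : ℝ) - 1) * M ≤ d * (M - 1) := by nlinarith only [hMdR]
      have h5 : (((d : ℝ) - 1) * q) * M ≤ q * (d * (M - 1)) := by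
        have := mul_le_mul_of_nonneg_left h4 hqR0
        linarith only [this]
      have h6 : (q : ℝ) * (d * (M - 1)) ≤ q * (d * (2 * T)) := by
        apply mul_le_mul_of_nonneg_left _ hqR0
        apply mul_le_mul_of_nonneg_left hTR (by linarith only [hdR])
      have h7 : (2 * d) * (d * Real.log M * M) < (2 * d) * ((q : ℝ) * T) := by
        nlinarith only [h3, h5, h6]
      exact lt_of_mul_lt_mul_left h7 (by linarith only [hdR])
    have h8 : ((M - q : ℕ) : ℝ) ≤ M * Real.exp (-(q / M)) := by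
      rw [Nat.cast_sub hqM]
      have h9 := Real.add_one_le_exp (-((q : ℝ) / M))
      have h10 := mul_le_mul_of_nonneg_left h9 hMR.le
      have h11 : (M : ℝ) * (-(q / M) + 1) = M - q := by
        field_simp
        ring
      linarith only [h10, h11]
    have h12 : (((M - q) ^ T : ℕ) : ℝ) ≤ (M * Real.exp (-(q / M))) ^ T := by
      push_cast [Nat.cast_pow]
      exact pow_le_pow_left₀ (Nat.cast_nonneg _) h8 T
    refine lt_of_le_of_lt h12 ?_
    have h13 : ((M : ℝ) ^ d)⁻¹ = Real.exp (-(d * Real.log M)) := by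
      rw [Real.exp_neg, mul_comm, Real.exp_mul, Real.exp_log hMR, Real.rpow_natCast]
    have h13' : (M : ℝ) ^ T / (M : ℝ) ^ d = (M : ℝ) ^ T * Real.exp (-(d * Real.log M)) := by
      rw [← h13, div_eq_mul_inv]
    rw [mul_pow, ← Real.exp_nat_mul, h13']
    apply mul_lt_mul_of_pos_left _ (pow_pos hMR T)
    apply Real.exp_lt_exp.2
    have h14 : (d : ℝ) * Real.log M < q * T / M := by
      rw [lt_div_iff₀ hMR]
      exact hmain
    have h15 : (T : ℝ) * -(q / M) = -(q * T / M) := by ring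
    rw [h15]
    linarith only [h14]
  have h16 : (((M ^ T : ℕ)) : ℝ) ≤
      ∑ a ∈ Bad, (((Fintype.piFinset (fun _ : Fin T => (S a)ᶜ)).card : ℕ) : ℝ) := by
    exact_mod_cast h1
  have hMT : (0 : ℝ) < (M : ℝ) ^ T := pow_pos hMR T
  rcases Bad.eq_empty_or_nonempty with hB | hB
  · rw [hB, Finset.sum_empty] at h16
    push_cast at h16
    linarith only [h16, hMT]
  · have h17 := Finset.sum_lt_sum_of_nonempty hB hterm
    rw [Finset.sum_const, nsmul_eq_mul] at h17
    have h18 : ((Bad.card : ℕ) : ℝ) ≤ (M : ℝ) ^ d := by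
      have h19 := Finset.card_le_univ Bad
      rw [Fintype.card_fun, ZMod.card, Fintype.card_fin] at h19
      exact_mod_cast h19
    have h20 : (Bad.card : ℝ) * ((M : ℝ) ^ T / (M : ℝ) ^ d) ≤ (M : ℝ) ^ T := by
      have h21 := mul_le_mul_of_nonneg_right h18
        (div_nonneg hMT.le (pow_nonneg hMR.le d) : (0 : ℝ) ≤ (M : ℝ) ^ T / (M : ℝ) ^ d)
      have h22 : (M : ℝ) ^ d * ((M : ℝ) ^ T / (M : ℝ) ^ d) = (M : ℝ) ^ T := by
        rw [mul_div_cancel₀]
        exact pow_ne_zero d hMR.ne'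
      linarith only [h21, h22]
    push_cast at h16
    linarith only [h16, h17, h20]

end Vale.Agent.P057.H829
end
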