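import Vale.Agent.P057.Bdl.B1
import Vale.Agent.P057.H336.VandKill
import Vale.Agent.P057.H829.Hit

set_option linter.all false

section

open Finset

namespace Vale.Agent.P057.H829

open Vale.Agent.P057.Lower

/-- the differences along a class -/
theorem fwd_class (N a : ℕ) (d : ℕ) : ∀ (u : ℕ → ℤ) (s : ℕ),
    (fwdDiff 1)^[d] (fun s => u (a + s * N)) s = (fwdDiff N)^[d] u (a + s * N) := by
  induction d with
  | zero =>
    intro u s
    rfl
  | succ d ih =>
    intro u s
    rw [Function.iterate_succ_apply, Function.iterate_succ_apply]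
    have h1 : fwdDiff 1 (fun s => u (a + s * N)) = fun s => (fwdDiff N u) (a + s * N) := by
      funext t
      simp only [fwdDiff]
      congr 2
      ring
    rw [h1]
    exact ih (fwdDiff N u) s

/-- the start of the window of `L` terms that contains `j` and `j + N` -/
theorem window_start (N k L j : ℕ) (hN : 0 < N) (hL : 2 ≤ L) (hk : N * L ≤ k) (hj : j + N < k) :
    ∃ t, t + 2 ≤ L ∧ t * N ≤ j ∧ j - t * N + (L - 1) * N < k := by
  obtain ⟨l, rfl⟩ : ∃ l, L = l + 2 := ⟨L - 2, by omega⟩
  have hl1 : (l + 2 - 1) * N = l * N + N := by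
    have : l + 2 - 1 = l + 1 := by omega
    rw [this]
    ring
  rw [hl1]
  by_cases hcase : j + (l * N + N) < k
  · exact ⟨0, by omega, by omega, by simpa using hcase⟩
  · push Not at hcase
    -- the least `t` with `j + (l + 1 - t) N < k`
    have hex : ∃ t, j + (l * N + N) < k + t * N := ⟨l, by
      have : j + N < k := hj
      linarith only [this]⟩
    have h1 := Nat.find_spec hex
    have h2 : Nat.find hex ≤ l := Nat.find_min' hex (by linarith only [hj])
    have h3 : Nat.find hex ≠ 0 := by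
      intro h0
      rw [h0] at h1
      omega
    have h4 := Nat.find_min hex (m := Nat.find hex - 1) (by omega)
    push Not at h4
    generalize Nat.find hex = t at h1 h2 h3 h4
    obtain ⟨t', rfl⟩ : ∃ t', t = t' + 1 := ⟨t - 1, by omega⟩
    have h5 : t' + 1 - 1 = t' := by omega
    rw [h5] at h4
    have h6 : N * (l + 2) = l * N + 2 * N := by ring
    have h7 : (t' + 1) * N = t' * N + N := by ring
    have h8 : t' * N + N ≤ l * N := by
      rw [← h7]
      exact Nat.mul_le_mul_right N h2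
    refine ⟨t' + 1, by omega, ?_, ?_⟩
    · rw [h7]
      omega
    · rw [h7] at h1 ⊢
      omega

/-- the number of integers up to `h` in absolute value in given classes -/
theorem card_classes' (N M : ℕ) (hN : 0 < N) (R : Finset (ZMod N)) :
    ((Finset.Icc (-(M : ℤ)) M).filter (fun u : ℤ => (u : ZMod N) ∈ R)).card ≤
      R.card * (2 * M / N + 1) := by
  classical
  have hN' : (0 : ℤ) < N := by exact_mod_cast hN
  have hmap : ∀ u ∈ (Finset.Icc (-(M : ℤ)) M).filter (fun u : ℤ => (u : ZMod N) ∈ R),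
      ((u : ZMod N), ((u + M) / N).toNat) ∈ R ×ˢ Finset.range (2 * M / N + 1) := by
    intro u hu
    obtain ⟨h1, h2⟩ := Finset.mem_filter.1 hu
    rw [Finset.mem_Icc] at h1
    rw [Finset.mem_product]
    refine ⟨h2, Finset.mem_range.2 ?_⟩
    show ((u + M) / N).toNat < 2 * M / N + 1
    have h3 : (u + M) / (N : ℤ) ≤ ((2 * M : ℕ) : ℤ) / (N : ℤ) := by
      apply Int.ediv_le_ediv hN'
      push_cast
      omega
    have h4 : (((2 * M / N : ℕ)) : ℤ) = ((2 * M : ℕ) : ℤ) / (N : ℤ) := Int.natCast_div _ _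
    have h5 : (0 : ℤ) ≤ ((2 * M : ℕ) : ℤ) / (N : ℤ) := Int.ediv_nonneg (by positivity) hN'.le
    omega
  have hinj : Set.InjOn (fun u : ℤ => (((u : ZMod N), ((u + M) / N).toNat) : ZMod N × ℕ))
      ((Finset.Icc (-(M : ℤ)) M).filter (fun u : ℤ => (u : ZMod N) ∈ R)) := by
    intro u hu v hv huv
    have h1 := Finset.mem_Icc.1 (Finset.mem_filter.1 (Finset.mem_coe.1 hu)).1
    have h2 := Finset.mem_Icc.1 (Finset.mem_filter.1 (Finset.mem_coe.1 hv)).1
    have h3 : (u : ZMod N) = (v : ZMod N) := congrArg Prod.fst huv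
    have h4 : ((u + M) / (N : ℤ)).toNat = ((v + M) / (N : ℤ)).toNat := congrArg Prod.snd huv
    have h5 : 0 ≤ (u + M) / (N : ℤ) := Int.ediv_nonneg (by omega) hN'.le
    have h6 : 0 ≤ (v + M) / (N : ℤ) := Int.ediv_nonneg (by omega) hN'.le
    have h7 : (u + M) / (N : ℤ) = (v + M) / (N : ℤ) := by omega
    rw [ZMod.intCast_eq_intCast_iff'] at h3
    have h8 : (u + M) % (N : ℤ) = (v + M) % (N : ℤ) := by
      rw [Int.add_emod, h3, ← Int.add_emod]
    have h9 := Int.emod_add_mul_ediv (u + M) N
    have h10 := Int.emod_add_mul_ediv (v + M) N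
    rw [h8, h7] at h9
    omega
  have := Finset.card_le_card_of_injOn _ hmap hinj
  rwa [Finset.card_product, Finset.card_range] at this

open Classical in
theorem cost_block (n r D k M' L w : ℕ) (hn : 2 ≤ n) (hr : D + 1 ≤ r * (n * (n - 1) / 2))
    (hM : 2 ≤ M') (hdL : r * (n * (n - 1) / 2) < L) (hk : n.factorial * L ≤ k)
    (hw : L ^ ((r * (n * (n - 1) / 2)) * (r * (n * (n - 1) / 2))) < 2 ^ w)
    (hL : 2 * ((r * (n * (n - 1) / 2) : ℕ) : ℝ) ^ 2 * ((w + 1) * Real.log M') < L)
    (hC : ∃ p0 : ℕ, ∀ p : ℕ, p0 ≤ p → p.Prime → ∀ h : ℕ, n.factorial ^ r * h < p →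
      ∀ u : ℕ → ℤ, (∀ j < k, |u j| ≤ h) →
        (∀ j, j + (D + 1) < k → (p : ℤ) ∣ (fwdDiff 1)^[D + 1] u j) →
        (∀ j, j + n.factorial < k → (M' : ℤ) ∣ u (j + n.factorial) - u j) →
        ∀ j, j + (D + 1) < k → (fwdDiff 1)^[D + 1] u j = 0) :
    Cost k D (r * Real.log n.factorial) := by
  intro η hη
  obtain ⟨p0, hp0⟩ := hC
  have hr1 : 1 ≤ r := by
    rcases Nat.eq_zero_or_pos r with h | h
    · rw [h, Nat.zero_mul] at hr
      omega
    · exact h
  set d : ℕ := r * (n * (n - 1) / 2) with hd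
  have hd1 : 1 ≤ d := by omega
  have hH := hit_poly d M' L w hd1 hM hdL hw hL
  set M : ℕ := M' ^ (w + 1) with hMdef
  obtain ⟨R, hRc, hR⟩ := hH
  have hM0 : 0 < M := pow_pos (by omega) _
  set F : ℕ := n.factorial with hF
  have hF2 : 2 ≤ F := by
    have := Nat.factorial_le hn
    simpa using this
  have hFr : 2 ≤ F ^ r := by
    calc 2 ≤ F := hF2
      _ = F ^ 1 := (pow_one F).symm
      _ ≤ F ^ r := Nat.pow_le_pow_right (by omega) hr1
  have hlt : Real.exp (-η) < 1 := Real.exp_lt_one_iff.2 (by linarith only [hη])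
  obtain ⟨m0, hm0⟩ := eventually_div_le ((F : ℝ) ^ r * M) (1 - Real.exp (-η))
    (by linarith only [hlt])
  refine ⟨max (max m0 p0) 1, fun p hp hpp => ?_⟩
  have hpm : m0 ≤ p := le_trans (le_trans (le_max_left _ _) (le_max_left _ _)) hp
  have hpp0 : p0 ≤ p := le_trans (le_trans (le_max_right _ _) (le_max_left _ _)) hp
  have hp1 : 1 ≤ p := hpp.pos
  set h : ℕ := (p - 1) / F ^ r with hh
  have hFh : F ^ r * h < p := by
    have : F ^ r * h ≤ p - 1 := by
      rw [hh]
      exact Nat.mul_div_le _ _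
    omega
  have h2h : 2 * h < p := lt_of_le_of_lt (Nat.mul_le_mul_right h hFr) hFh
  refine ⟨(Finset.Icc (-(h : ℤ)) h).filter (fun u : ℤ => (u : ZMod M) ∉ R), ⟨?_, ?_⟩, ?_, ?_⟩
  · intro u hu v hv huv
    have h1 := Finset.mem_Icc.1 (Finset.mem_filter.1 hu).1
    have h2 := Finset.mem_Icc.1 (Finset.mem_filter.1 hv).1
    obtain ⟨c, hc⟩ := huv
    have h3 : |u - v| < p := by
      rw [abs_lt]
      constructor <;> omega
    have h4 : u - v = 0 := Int.eq_zero_of_abs_lt_dvd ⟨c, hc⟩ h3
    omega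
  · intro u hu hdv
    have hub : ∀ j < k, |u j| ≤ h := fun j hj =>
      abs_le.2 (Finset.mem_Icc.1 (Finset.mem_filter.1 (hu j hj)).1)
    have hkill : ∀ j, j + F * d < k → (fwdDiff F)^[d] u j = 0 :=
      Vale.Agent.P057.H336.vand_kill n r D k p h hn hr hFh u hub hdv
    apply hp0 p hpp0 hpp h hFh u hub hdv
    intro j hj
    obtain ⟨t, ht2, htj, htk⟩ := window_start F k L j (by omega) (by omega) hk hj
    have hwin : ∀ s < L, (j - t * F) + s * F < k := by
      intro s hs
      have : s * F ≤ (L - 1) * F := Nat.mul_le_mul_right F (by omega)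
      omega
    have hA : ∀ s, s + d < L → (fwdDiff 1)^[d] (fun s => u ((j - t * F) + s * F)) s = 0 := by
      intro s hs
      rw [fwd_class]
      apply hkill
      have h3 := hwin (s + d) hs
      have h4 : (s + d) * F = s * F + F * d := by ring
      rw [h4] at h3
      omega
    have hav : ∀ s < L, (((fun s => u ((j - t * F) + s * F)) s : ℤ) : ZMod M) ∉ R := by
      intro s hs
      exact (Finset.mem_filter.1 (hu _ (hwin s hs))).2
    have hdvd := hR (fun s => u ((j - t * F) + s * F)) hA hav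
    have h5 := hdvd (t + 1) (by omega)
    have h6 := hdvd t (by omega)
    have h7 := dvd_sub h5 h6
    have h8 : j - t * F + t * F = j := by omega
    have h9 : j - t * F + (t + 1) * F = j + F := by
      have : (t + 1) * F = t * F + F := by ring
      omega
    simp only [h8, h9] at h7
    have h10 : u (j + F) - u (j - t * F + 0 * F) - (u j - u (j - t * F + 0 * F)) =
        u (j + F) - u j := by ring
    rw [h10] at h7
    exact h7
  · intro u hu
    have h1 := Finset.mem_Icc.1 (Finset.mem_filter.1 hu).1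
    rw [abs_le]
    constructor <;> omega
  · have hpR : (0 : ℝ) < p := by exact_mod_cast hpp.pos
    have hMR : (0 : ℝ) < M := by exact_mod_cast hM0
    have hcount : 2 * h + 1 ≤ ((Finset.Icc (-(h : ℤ)) h).filter
        (fun u : ℤ => (u : ZMod M) ∉ R)).card + R.card * (2 * h / M + 1) := by
      have h1 := Finset.card_filter_add_card_filter_not (s := Finset.Icc (-(h : ℤ)) h)
        (fun u : ℤ => (u : ZMod M) ∈ R)
      have h2 := card_classes' M h hM0 R
      rw [Int.card_Icc] at h1
      have h3 : ((h : ℤ) + 1 - -(h : ℤ)).toNat = 2 * h + 1 := by omega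
      rw [h3] at h1
      omega
    have hhalf : (R.card : ℝ) * ((2 * h / M + 1 : ℕ) : ℝ) ≤ h + M / 2 := by
      have h1 : (R.card : ℝ) ≤ M / 2 := by
        have : ((2 * R.card : ℕ) : ℝ) ≤ (M : ℕ) := by exact_mod_cast hRc
        push_cast at this
        linarith only [this]
      have h2 : ((2 * h / M + 1 : ℕ) : ℝ) ≤ 2 * h / M + 1 := by
        push_cast
        have := @Nat.cast_div_le ℝ _ _ _ (2 * h) M
        push_cast at this
        linarith only [this]
      calc (R.card : ℝ) * ((2 * h / M + 1 : ℕ) : ℝ) ≤ (M / 2) * (2 * h / M + 1) :=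
            mul_le_mul h1 h2 (Nat.cast_nonneg _) (by positivity)
        _ = h + M / 2 := by
            field_simp
    have hcountR : ((2 * h + 1 : ℕ) : ℝ) ≤ (((Finset.Icc (-(h : ℤ)) h).filter
        (fun u : ℤ => (u : ZMod M) ∉ R)).card : ℝ) + R.card * ((2 * h / M + 1 : ℕ) : ℝ) := by
      exact_mod_cast hcount
    push_cast at hcountR
    have hp2 : (p : ℝ) ≤ (F : ℝ) ^ r * (h + 1) := by
      have h1 : p ≤ F ^ r * (h + 1) := by
        have := Nat.lt_mul_div_succ (p - 1) (b := F ^ r) (by omega)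
        rw [← hh] at this
        omega
      have h2 : (p : ℝ) ≤ ((F ^ r * (h + 1) : ℕ) : ℝ) := by exact_mod_cast h1
      push_cast at h2
      exact h2
    have hFrR : (0 : ℝ) < (F : ℝ) ^ r := by
      have : (0 : ℝ) < F := by
        have : 0 < F := by omega
        exact_mod_cast this
      exact pow_pos this r
    have hexp : Real.exp (-(r * Real.log F + η)) = Real.exp (-η) / (F : ℝ) ^ r := by
      have h1 : (0 : ℝ) < F := by
        have : 0 < F := by omega
        exact_mod_cast this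
      rw [neg_add, Real.exp_add, Real.exp_neg, mul_comm (r : ℝ), Real.exp_mul,
        Real.exp_log h1, Real.rpow_natCast]
      field_simp
    rw [hexp, le_div_iff₀ hpR, div_mul_eq_mul_div, div_le_iff₀ hFrR]
    have h4 := hm0 p hpm
    rw [div_le_iff₀ hpR] at h4
    generalize (((Finset.Icc (-(h : ℤ)) h).filter (fun u : ℤ => (u : ZMod M) ∉ R)).card : ℝ) = c
      at hcountR ⊢
    have hc1 : (h : ℝ) + 1 - M / 2 ≤ c := by
      push_cast at hhalf
      linarith only [hcountR, hhalf]
    have hc2 := mul_le_mul_of_nonneg_left hc1 hFrR.le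
    have hMF : (0 : ℝ) ≤ (F : ℝ) ^ r * M := by positivity
    nlinarith only [hc2, hp2, h4, hMF]

end Vale.Agent.P057.H829

end
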