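import Vale.Agent.P057.H203.TowFin

/-!
# P057 : the tower with a power saving in `n`
-/

set_option linter.all false
set_option autoImplicit false

section

open Finset Vale.Agent.P057.Lower

namespace Vale.Agent.P057.H829

theorem two_pow_big (l : ℕ) (hl : 11 ≤ l) : 120 * l + 720 ≤ 2 ^ l := by
  induction l, hl using Nat.le_induction with
  | base => norm_num
  | succ l hl ih =>
    rw [pow_succ]
    omega

/-- the number of levels with a gain -/
theorem levels (n : ℕ) (hn : 2048 ≤ n) :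
    n ≤ 12 * ((n - 1) / 10 + 1 - (2 * Nat.log 2 n + 12)) := by
  have h1 : 11 ≤ Nat.log 2 n := by
    have : Nat.log 2 2048 ≤ Nat.log 2 n := Nat.log_mono_right hn
    have h2 : Nat.log 2 2048 = 11 := by
      rw [show (2048 : ℕ) = 2 ^ 11 by norm_num, Nat.log_pow (by norm_num)]
    omega
  have h2 := two_pow_big _ h1
  have h3 : 2 ^ Nat.log 2 n ≤ n := Nat.pow_log_le_self 2 (by omega)
  omega

/-- the tower when all levels `2 log n + 12 ≤ j ≤ (n - 1) / 10` gain `g ^ 12` -/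
theorem asy_of (n k : ℕ) (hn : 2048 ≤ n) (hnk : 2 ^ (n - 1) < k) (g : ℝ) (hg0 : 0 < g)
    (hg1 : g ≤ 1)
    (H : ∀ j, 2 * Nat.log 2 n + 12 ≤ j → 10 * j ≤ n - 1 →
      Cost k (2 ^ j) (g ^ 12 * ((2 ^ j : ℕ) : ℝ) * Real.log 2)) :
    Asy k 1 n (g ^ n * 2 ^ (n * (n - 1) / 2) * Real.log 2 ^ (n - 1)) := by
  have hθ : 0 < g ^ 12 := by positivity
  have hθ1 : g ^ 12 ≤ 1 := pow_le_one₀ hg0.le hg1
  have hlog : 0 < Real.log 2 := Real.log_pos (by norm_num)
  let good : ℕ → Prop := fun j => 2 * Nat.log 2 n + 12 ≤ j ∧ 10 * j ≤ n - 1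
  classical
  let e : ℕ → ℝ := fun j => if good j then g ^ 12 else 1
  have he0 : ∀ j, 0 < e j := by
    intro j
    simp only [e]
    split_ifs
    · exact hθ
    · exact one_pos
  have hcost : ∀ j, j + 2 ≤ n → 0 < e j * (((2 ^ j : ℕ) : ℝ) * Real.log 2) ∧
      Cost k (2 ^ j) (e j * (((2 ^ j : ℕ) : ℝ) * Real.log 2)) := by
    intro j hj
    refine ⟨mul_pos (he0 j) (mul_pos (by positivity) hlog), ?_⟩
    by_cases hg : good j
    · have h1 : e j = g ^ 12 := if_pos hg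
      rw [h1]
      have h2 := H j hg.1 hg.2
      rw [mul_assoc] at h2
      exact h2
    · have h1 : e j = 1 := if_neg hg
      rw [h1, one_mul]
      exact cost_interval k (2 ^ j)
  have hT := H203.tower k n (by omega) hnk (fun j => e j * (((2 ^ j : ℕ) : ℝ) * Real.log 2)) hcost
  refine H203.Asy.mono' hT (Finset.prod_nonneg (fun j _ => ?_)) ?_
  · have := he0 j
    positivity
  · have e1 : ∏ j ∈ range (n - 1), (2 * (e j * (((2 ^ j : ℕ) : ℝ) * Real.log 2))) =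
        (∏ j ∈ range (n - 1), e j) * ∏ j ∈ range (n - 1),
          (2 * (((2 ^ j : ℕ) : ℝ) * Real.log 2)) := by
      rw [← Finset.prod_mul_distrib]
      apply Finset.prod_congr rfl
      intro j _
      ring
    rw [e1, H203.prod_two_pow, mul_assoc]
    apply mul_le_mul_of_nonneg_right _ (by positivity)
    set S : Finset ℕ := (range (n - 1)).filter good with hS
    have e2 : ∏ j ∈ range (n - 1), e j = (g ^ 12) ^ S.card := by
      simp only [e]
      rw [Finset.prod_ite, Finset.prod_const, Finset.prod_const_one, mul_one]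
    have hScard : n ≤ 12 * S.card := by
      have h1 : Finset.Icc (2 * Nat.log 2 n + 12) ((n - 1) / 10) ⊆ S := by
        intro j hj
        rw [Finset.mem_Icc] at hj
        rw [hS, Finset.mem_filter, Finset.mem_range]
        exact ⟨by omega, hj.1, by omega⟩
      have h2 := Finset.card_le_card h1
      rw [Nat.card_Icc] at h2
      have h3 := levels n hn
      omega
    rw [e2, ← pow_mul]
    exact pow_le_pow_of_le_one hg0.le hg1 hScard

theorem expo_le (n : ℕ) (hn : 2 ≤ n) (g L : ℝ) (hg : 0 ≤ g) (hL : 0 ≤ L) :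
    (1 + 1 / 5) * (n : ℝ) * (g ^ n * 2 ^ (n * (n - 1) / 2) * Real.log 2 ^ (n - 1) * L) ^
      ((1 : ℝ) / n) ≤
    g * n * (2 : ℝ) ^ (((n : ℝ) - 1) / 2) * L ^ ((1 : ℝ) / n) := by
  have h := H203.expo n (by omega) (2 * g) L (by positivity) hL
  rw [mul_div_cancel_left₀ g (by norm_num : (2 : ℝ) ≠ 0)] at h
  have hlog : 0 < Real.log 2 := Real.log_pos (by norm_num)
  have hlog2 : Real.log 2 ≤ 25 / 36 := by
    have := Real.log_two_lt_d9
    linarith only [this]
  have hn2 : (2 : ℝ) ≤ n := by exact_mod_cast hn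
  have h1 : Real.log 2 ^ (((n : ℝ) - 1) / n) ≤ 5 / 6 := by
    calc Real.log 2 ^ (((n : ℝ) - 1) / n) ≤ Real.log 2 ^ ((1 : ℝ) / 2) := by
          apply Real.rpow_le_rpow_of_exponent_ge hlog (by linarith only [hlog2])
          rw [div_le_div_iff₀ (by norm_num) (by linarith only [hn2])]
          linarith only [hn2]
      _ ≤ (25 / 36 : ℝ) ^ ((1 : ℝ) / 2) := Real.rpow_le_rpow hlog.le hlog2 (by norm_num)
      _ = 5 / 6 := by
          rw [← Real.sqrt_eq_rpow, show (25 / 36 : ℝ) = (5 / 6) ^ 2 by norm_num,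
            Real.sqrt_sq (by norm_num)]
  have hP : 0 ≤ g * n * (2 : ℝ) ^ (((n : ℝ) - 1) / 2) * L ^ ((1 : ℝ) / n) := by positivity
  have h2 := mul_le_mul_of_nonneg_left h1 hP
  nlinarith only [h, h2]

/-- power saving in `n` -/
theorem pow_of (P1 : ∃ n0 : ℕ, ∀ n, n0 ≤ n → ∀ k : ℕ, 2 ^ (n - 1) < k → ∀ j,
      2 * Nat.log 2 n + 12 ≤ j → 10 * j ≤ n - 1 →
      Cost k (2 ^ j) ((Real.sqrt n)⁻¹ * ((2 ^ j : ℕ) : ℝ) * Real.log 2)) :
    ∃ K : ℕ, ∀ k : ℕ, K ≤ k → ∀ n : ℕ, n = Nat.clog 2 k →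
      ∃ N₀ : ℕ, ∀ N : ℕ, N₀ ≤ N → ∃ A : Finset ℕ, A ⊆ Finset.Icc 1 N ∧
        (∀ a d : ℕ, 0 < d → ¬ ∀ j < k, a + j * d ∈ A) ∧
        (N : ℝ) * Real.exp (-((n : ℝ) ^ ((23 : ℝ) / 24) * (2 : ℝ) ^ (((n : ℝ) - 1) / 2) *
          Real.log N ^ ((1 : ℝ) / n))) ≤ A.card := by
  obtain ⟨n0, hP⟩ := P1
  refine ⟨2 ^ (max n0 2048) + 1, fun k hk n hn => ?_⟩
  have hkbig : 2 ^ (max n0 2048) < k := hk
  have hk2 : 2 ≤ k := by
    have : 1 ≤ 2 ^ (max n0 2048) := Nat.one_le_two_pow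
    omega
  have hnk : 2 ^ (n - 1) < k := by
    rw [hn]; exact Nat.pow_pred_clog_lt_self (by norm_num) (by omega)
  have hnbig : max n0 2048 < n := by
    by_contra hcon
    push Not at hcon
    have h3 : k ≤ 2 ^ Nat.clog 2 k := Nat.le_pow_clog (by norm_num) k
    rw [← hn] at h3
    have h4 : 2 ^ n ≤ 2 ^ (max n0 2048) := Nat.pow_le_pow_right (by norm_num) hcon
    omega
  have hn0 : n0 ≤ n := le_trans (le_max_left _ _) hnbig.le
  have hn2048 : 2048 ≤ n := le_trans (le_max_right _ _) hnbig.le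
  have hnR : (1 : ℝ) ≤ n := by
    have : 1 ≤ n := by omega
    exact_mod_cast this
  have hnpos : (0 : ℝ) < n := by linarith only [hnR]
  set g : ℝ := (n : ℝ) ^ (-(1 : ℝ) / 24) with hg
  have hg0 : 0 < g := Real.rpow_pos_of_pos hnpos _
  have hg1 : g ≤ 1 := Real.rpow_le_one_of_one_le_of_nonpos hnR (by norm_num)
  have hg12 : g ^ 12 = (Real.sqrt n)⁻¹ := by
    rw [hg, ← Real.rpow_natCast, ← Real.rpow_mul hnpos.le, Real.sqrt_eq_rpow,
      ← Real.rpow_neg hnpos.le]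
    congr 1
    norm_num
  have hA := asy_of n k hn2048 hnk g hg0 hg1 (by
    intro j hj1 hj2
    rw [hg12]
    exact hP n hn0 k hnk j hj1 hj2)
  obtain ⟨N0, hN0⟩ := hA (1 / 5) (by norm_num)
  refine ⟨N0, fun N hN => ?_⟩
  have h := hN0 N hN
  have h2 := expo_le n (by omega) g (Real.log N) hg0.le (Real.log_natCast_nonneg N)
  have hgn : g * n = (n : ℝ) ^ ((23 : ℝ) / 24) := by
    conv_lhs => rw [hg, ← Real.rpow_one (n : ℝ), ← Real.rpow_mul hnpos.le]
    rw [one_mul, ← Real.rpow_add hnpos]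
    norm_num
  rw [hgn] at h2
  exact H203.nat_of_dens (h.mono (Real.exp_le_exp.2 (neg_le_neg h2)))

end Vale.Agent.P057.H829

end
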