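import Vale.Agent.P057.H562.Van
import Vale.Agent.P057.H829.Pow

/-!
# P057 : power saving in `n`, the numerics
-/

set_option linter.all false
set_option autoImplicit false

section

open Finset Vale.Agent.P057.Lower

namespace Vale.Agent.P057.H829

theorem cost_mono' {k D : ℕ} {c c' : ℝ} (h : Cost k D c) (hc : c ≤ c') : Cost k D c' := by
  intro η hη
  obtain ⟨m0, hm⟩ := h η hη
  refine ⟨m0, fun p hp hpp => ?_⟩
  obtain ⟨U, h1, h2, h3⟩ := hm p hp hpp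
  exact ⟨U, h1, h2, le_trans (Real.exp_le_exp.2 (by linarith)) h3⟩

theorem q_big (q : ℕ) (hq : 13 ≤ q) : 512 * q ≤ 2 ^ q := by
  induction q, hq using Nat.le_induction with
  | base => norm_num
  | succ l hl ih =>
    rw [pow_succ]
    omega

/-- the real inequality for the window -/
theorem window_num (D d w j : ℕ) (m V : ℝ) (hD : 4864 ≤ D) (hj : j < D) (hj1 : 1 ≤ j)
    (hd : d ≤ 2 * D) (hw : w = 9 * j * (d * d) + 1) (hV : V ≤ D)
    (hm : m ≤ ((D : ℝ) + 2) ^ 2 * (V + Real.log ((D : ℝ) + 2) + 1)) :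
    2 * (d : ℝ) ^ 2 * (((w : ℝ) + 1) * m) < ((D ^ 9 : ℕ) : ℝ) := by
  have hD1 : (4864 : ℝ) ≤ D := by exact_mod_cast hD
  have hjD : (j : ℝ) + 1 ≤ D := by exact_mod_cast hj
  have hj1' : (1 : ℝ) ≤ j := by exact_mod_cast hj1
  have hdR : (d : ℝ) ≤ 2 * D := by exact_mod_cast hd
  have hd0 : (0 : ℝ) ≤ d := Nat.cast_nonneg d
  have hwR : (w : ℝ) + 1 ≤ 38 * j * (D : ℝ) ^ 2 := by
    rw [hw]
    push_cast
    have h1 : (d : ℝ) * d ≤ (2 * D) * (2 * D) := mul_le_mul hdR hdR hd0 (by positivity)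
    have h2 : 9 * (j : ℝ) * ((d : ℝ) * d) ≤ 9 * j * ((2 * D) * (2 * D)) :=
      mul_le_mul_of_nonneg_left h1 (by positivity)
    have h3 : (1 : ℝ) ≤ j * (D : ℝ) ^ 2 := by
      have : (1 : ℝ) ≤ (D : ℝ) ^ 2 := by nlinarith only [hD1]
      nlinarith only [this, hj1']
    nlinarith only [h2, h3]
  have hlog : Real.log ((D : ℝ) + 2) ≤ D + 1 := by
    have := Real.log_le_sub_one_of_pos (show (0 : ℝ) < (D : ℝ) + 2 by positivity)
    linarith only [this]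
  have hm2 : m ≤ 16 * (D : ℝ) ^ 3 := by
    have h1 : V + Real.log ((D : ℝ) + 2) + 1 ≤ 4 * D := by linarith only [hV, hlog, hD1]
    have h2 : ((D : ℝ) + 2) ^ 2 ≤ 4 * (D : ℝ) ^ 2 := by nlinarith only [hD1]
    calc m ≤ ((D : ℝ) + 2) ^ 2 * (V + Real.log ((D : ℝ) + 2) + 1) := hm
      _ ≤ ((D : ℝ) + 2) ^ 2 * (4 * D) := mul_le_mul_of_nonneg_left h1 (by positivity)
      _ ≤ (4 * (D : ℝ) ^ 2) * (4 * D) := mul_le_mul_of_nonneg_right h2 (by positivity)
      _ = 16 * (D : ℝ) ^ 3 := by ring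
  have hdd : 2 * (d : ℝ) ^ 2 ≤ 8 * (D : ℝ) ^ 2 := by nlinarith only [hdR, hd0]
  have hw0 : (0 : ℝ) ≤ (w : ℝ) + 1 := by positivity
  have hDp : (0 : ℝ) < D := by linarith only [hD1]
  calc 2 * (d : ℝ) ^ 2 * (((w : ℝ) + 1) * m)
      ≤ 2 * (d : ℝ) ^ 2 * (((w : ℝ) + 1) * (16 * (D : ℝ) ^ 3)) :=
        mul_le_mul_of_nonneg_left (mul_le_mul_of_nonneg_left hm2 hw0) (by positivity)
    _ ≤ 8 * (D : ℝ) ^ 2 * ((38 * j * (D : ℝ) ^ 2) * (16 * (D : ℝ) ^ 3)) := by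
        apply mul_le_mul hdd _ (by positivity) (by positivity)
        exact mul_le_mul_of_nonneg_right hwR (by positivity)
    _ = (4864 * j) * (D : ℝ) ^ 7 := by ring
    _ < (D * D) * (D : ℝ) ^ 7 := by
        apply mul_lt_mul_of_pos_right _ (by positivity)
        nlinarith only [hD1, hjD, hj1']
    _ = ((D ^ 9 : ℕ) : ℝ) := by
        push_cast
        ring

theorem P1 : ∃ n0 : ℕ, ∀ n, n0 ≤ n → ∀ k : ℕ, 2 ^ (n - 1) < k → ∀ j,
      2 * Nat.log 2 n + 12 ≤ j → 10 * j ≤ n - 1 →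
      Cost k (2 ^ j) ((Real.sqrt n)⁻¹ * ((2 ^ j : ℕ) : ℝ) * Real.log 2) := by
  refine ⟨2 ^ 78, fun n hn k hk j hj1 hj2 => ?_⟩
  have hn0 : n ≠ 0 := by
    intro h
    rw [h] at hn
    norm_num at hn
  obtain ⟨l, hl⟩ : ∃ l, l = Nat.log 2 n := ⟨_, rfl⟩
  have hl78 : 78 ≤ l := by
    rw [hl]
    exact Nat.le_log_of_pow_le (by norm_num) hn
  have hln : 2 ^ l ≤ n := by
    rw [hl]
    exact Nat.pow_log_le_self 2 hn0
  have hnl : n < 2 ^ (l + 1) := by
    rw [hl]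
    exact Nat.lt_pow_succ_log_self (by norm_num) n
  rw [← hl] at hj1
  clear hl hn
  obtain ⟨q, hq⟩ : ∃ q, q = l / 6 := ⟨_, rfl⟩
  have hq13 : 13 ≤ q := by omega
  have hqb := q_big q hq13
  have hlog : 0 < Real.log 2 := Real.log_pos (by norm_num)
  -- the parameters
  obtain ⟨Q, hQ⟩ : ∃ Q, Q = 2 ^ (3 * q) := ⟨_, rfl⟩
  obtain ⟨u, hu⟩ : ∃ u, u = 2 ^ (4 * q - 1) := ⟨_, rfl⟩
  obtain ⟨D, hDdef⟩ : ∃ D, D = 2 ^ j := ⟨_, rfl⟩
  have hQ0 : 0 < Q := by rw [hQ]; positivity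
  have hu0 : 0 < u := by rw [hu]; positivity
  have h2u : 2 * u = 2 ^ (4 * q) := by
    rw [hu, ← pow_succ']
    congr 1
    omega
  have huQ : 2 * u = Q * 2 ^ q := by
    rw [h2u, hQ, ← pow_add]
    congr 1
    omega
  have hDbig : 4864 ≤ D := by
    rw [hDdef]
    calc 4864 ≤ 2 ^ 13 := by norm_num
      _ ≤ 2 ^ j := Nat.pow_le_pow_right (by norm_num) (by omega)
  have hjD : j < D := by
    rw [hDdef]
    exact Nat.lt_two_pow_self
  have huu : 2 * u * (2 * u) ≤ D := by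
    rw [h2u, ← pow_add, hDdef]
    exact Nat.pow_le_pow_right (by norm_num) (by omega)
  -- `E`
  obtain ⟨E, hE⟩ : ∃ E, E = (2 * u) * (2 * u - 1) / 2 := ⟨_, rfl⟩
  have hE' : E = u * (2 * u - 1) := by
    rw [hE, mul_assoc, Nat.mul_div_cancel_left _ (by norm_num)]
  have hE1 : u * u ≤ E := by
    rw [hE']
    exact Nat.mul_le_mul_left u (by omega)
  have hE2 : E ≤ D := by
    rw [hE']
    calc u * (2 * u - 1) ≤ (2 * u) * (2 * u) := Nat.mul_le_mul (by omega) (by omega)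
      _ ≤ D := huu
  have hE0 : 0 < E := lt_of_lt_of_le (Nat.mul_pos hu0 hu0) hE1
  obtain ⟨r, hr⟩ : ∃ r, r = D / E + 1 := ⟨_, rfl⟩
  have hrE : D + 1 ≤ r * E := by
    have := Nat.lt_mul_div_succ D hE0
    rw [hr, mul_comm]
    exact this
  have hrE2 : r * E ≤ 2 * D := by
    have := Nat.div_mul_le_self D E
    rw [hr, Nat.add_mul, Nat.one_mul]
    omega
  have hruu : r * (u * u) ≤ 2 * D := le_trans (Nat.mul_le_mul_left r hE1) hrE2
  -- the factorial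
  have hfac : (2 * u).factorial ≤ 2 ^ (4 * q * (2 * u)) := by
    calc (2 * u).factorial ≤ (2 * u) ^ (2 * u) := Nat.factorial_le_pow _
      _ = 2 ^ (4 * q * (2 * u)) := by
        conv_lhs => rw [h2u]
        rw [← pow_mul, h2u]
  have hau : 10 * (4 * q * (2 * u)) + 1 ≤ n := by
    have h1 : 10 * (4 * q * (2 * u)) + 1 ≤ 2 ^ l := by
      have h2 : 40 * q + 1 ≤ 2 ^ q := by omega
      calc 10 * (4 * q * (2 * u)) + 1 = (40 * q) * 2 ^ (4 * q) + 1 := by rw [h2u]; ring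
        _ ≤ (40 * q) * 2 ^ (4 * q) + 2 ^ (4 * q) := by
          have : 1 ≤ 2 ^ (4 * q) := Nat.one_le_two_pow
          omega
        _ = (40 * q + 1) * 2 ^ (4 * q) := by ring
        _ ≤ 2 ^ q * 2 ^ (4 * q) := Nat.mul_le_mul_right _ h2
        _ = 2 ^ (q + 4 * q) := (pow_add _ _ _).symm
        _ ≤ 2 ^ l := Nat.pow_le_pow_right (by norm_num) (by omega)
    omega
  have hLk : (2 * u).factorial * D ^ 9 ≤ k := by
    have h1 : (2 * u).factorial * D ^ 9 ≤ 2 ^ (4 * q * (2 * u)) * 2 ^ (j * 9) := by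
      rw [hDdef, ← pow_mul]
      exact Nat.mul_le_mul_right _ hfac
    rw [← pow_add] at h1
    have h2 : 2 ^ (4 * q * (2 * u) + j * 9) ≤ 2 ^ (n - 1) :=
      Nat.pow_le_pow_right (by norm_num) (by omega)
    omega
  have hD9 : 2 * D < D ^ 9 := by
    have h1 : D ^ 9 = D * D ^ 8 := by ring
    have h2 : D ≤ D ^ 8 := Nat.le_self_pow (by norm_num) D
    have h3 : D * D ≤ D * D ^ 8 := Nat.mul_le_mul_left D h2
    nlinarith only [h1, h3, hDbig]
  have hkD : (2 * u).factorial * (D + 5) ≤ k :=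
    le_trans (Nat.mul_le_mul_left _ (by omega)) hLk
  obtain ⟨w, hw⟩ : ∃ w, w = 9 * j * ((r * E) * (r * E)) + 1 := ⟨_, rfl⟩
  have hLw : (D ^ 9) ^ ((r * E) * (r * E)) < 2 ^ w := by
    rw [hDdef, ← pow_mul, ← pow_mul, hw]
    have h1 : j * (9 * (r * E * (r * E))) = 9 * j * (r * E * (r * E)) := by ring
    rw [h1]
    exact Nat.pow_lt_pow_right (by norm_num) (Nat.lt_succ_self _)
  have hlogfac : Real.log ((2 * u).factorial : ℝ) ≤ ((4 * q * (2 * u) : ℕ) : ℝ) * Real.log 2 := by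
    have h1 : ((2 * u).factorial : ℝ) ≤ (2 : ℝ) ^ (4 * q * (2 * u)) := by exact_mod_cast hfac
    calc Real.log ((2 * u).factorial : ℝ) ≤ Real.log ((2 : ℝ) ^ (4 * q * (2 * u))) :=
          Real.log_le_log (by exact_mod_cast Nat.factorial_pos _) h1
      _ = _ := Real.log_pow _ _
  have hlog1 : Real.log 2 ≤ 1 := by
    have := Real.log_two_lt_d9
    linarith only [this]
  have hvD : 4 * q * (2 * u) ≤ D := by
    rw [h2u, hDdef]
    calc 4 * q * 2 ^ (4 * q) ≤ 2 ^ q * 2 ^ (4 * q) := Nat.mul_le_mul_right _ (by omega)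
      _ = 2 ^ (q + 4 * q) := (pow_add _ _ _).symm
      _ ≤ 2 ^ j := Nat.pow_le_pow_right (by norm_num) (by omega)
  have hV : Real.log ((2 * u).factorial : ℝ) ≤ D := by
    have h1 : ((4 * q * (2 * u) : ℕ) : ℝ) ≤ (D : ℕ) := by exact_mod_cast hvD
    have h2 : ((4 * q * (2 * u) : ℕ) : ℝ) * Real.log 2 ≤ ((4 * q * (2 * u) : ℕ) : ℝ) * 1 :=
      mul_le_mul_of_nonneg_left hlog1 (Nat.cast_nonneg _)
    linarith only [hlogfac, h1, h2]
  have hLL := window_num D (r * E) w j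
    (Real.log (Vale.Agent.P057.H562.modu (2 * u).factorial D)) _ hDbig hjD (by omega) hrE2 hw hV
    (Vale.Agent.P057.H562.log_modu (2 * u).factorial D (Nat.succ_le_of_lt (Nat.factorial_pos _)))
  have hcost : Cost k D (r * Real.log (2 * u).factorial + 2 * Real.log 2) :=
    Vale.Agent.P057.H562.cost_vand (2 * u) D k r (D ^ 9) w (by omega)
      (by rw [← hE]; exact hrE) hLk hkD (by rw [← hE]; exact lt_of_le_of_lt hrE2 hD9) (by rw [← hE]; exact hLw)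
      (by rw [← hE]; exact hLL)
  rw [← hDdef]
  refine cost_mono' hcost ?_
  -- the saving
  obtain ⟨s, hs⟩ : ∃ s, s = l / 2 + 1 := ⟨_, rfl⟩
  obtain ⟨S, hS⟩ : ∃ S, S = 2 ^ s := ⟨_, rfl⟩
  have hS0 : 0 < S := by rw [hS]; positivity
  have hSQ : S ≤ 8 * Q := by
    rw [hS, hQ, show (8 : ℕ) = 2 ^ 3 by norm_num, ← pow_add]
    exact Nat.pow_le_pow_right (by norm_num) (by omega)
  have hSD : 4 * S ≤ D := by
    rw [hS, hDdef, show (4 : ℕ) = 2 ^ 2 by norm_num, ← pow_add]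
    exact Nat.pow_le_pow_right (by norm_num) (by omega)
  have hnS : n ≤ S * S := by
    rw [hS, ← pow_add]
    exact le_trans hnl.le (Nat.pow_le_pow_right (by norm_num) (by omega))
  have hkey : S * (r * (4 * q * (2 * u)) + 2) ≤ D := by
    have h1 : u * (S * (r * (4 * q * (2 * u)) + 2)) ≤ u * D := by
      have h2 : 512 * q * Q ≤ 2 * u := by
        rw [huQ, mul_comm]
        exact Nat.mul_le_mul_left Q hqb
      have h3 : u * (S * (r * (4 * q * (2 * u)) + 2)) =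
          8 * q * S * (r * (u * u)) + 2 * S * u := by ring
      have h4 : 8 * q * S * (r * (u * u)) ≤ 8 * q * S * (2 * D) := Nat.mul_le_mul_left _ hruu
      have h5 : 8 * q * S * (2 * D) ≤ 8 * q * (8 * Q) * (2 * D) :=
        Nat.mul_le_mul_right _ (Nat.mul_le_mul_left _ hSQ)
      have h6 : 2 * (8 * q * (8 * Q) * (2 * D)) ≤ u * D := by
        have h7 : 512 * q * Q * D ≤ 2 * u * D := Nat.mul_le_mul_right D h2
        have h8 : 2 * (2 * (8 * q * (8 * Q) * (2 * D))) = 512 * q * Q * D := by ring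
        have h9 : 2 * u * D = 2 * (u * D) := by ring
        omega
      have h10 : 2 * (2 * S * u) ≤ u * D := by
        have : 4 * S * u ≤ D * u := Nat.mul_le_mul_right u hSD
        have h11 : D * u = u * D := mul_comm _ _
        have h12 : 2 * (2 * S * u) = 4 * S * u := by ring
        omega
      omega
    exact Nat.le_of_mul_le_mul_left h1 hu0
  have hnR : (0 : ℝ) < n := by
    have : 0 < n := Nat.pos_of_ne_zero hn0
    exact_mod_cast this
  have hsq : Real.sqrt n ≤ S := by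
    rw [Real.sqrt_le_left (Nat.cast_nonneg S)]
    have : ((n : ℕ) : ℝ) ≤ ((S * S : ℕ) : ℝ) := by exact_mod_cast hnS
    push_cast at this
    nlinarith only [this]
  have hsq0 : 0 < Real.sqrt n := Real.sqrt_pos.2 hnR
  have hkeyR : (S : ℝ) * ((r : ℝ) * ((4 * q * (2 * u) : ℕ) : ℝ) + 2) ≤ D := by
    exact_mod_cast hkey
  have hX0 : (0 : ℝ) ≤ (r : ℝ) * ((4 * q * (2 * u) : ℕ) : ℝ) + 2 := by positivity
  have h1 : Real.sqrt n * ((r : ℝ) * ((4 * q * (2 * u) : ℕ) : ℝ) + 2) ≤ D :=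
    le_trans (mul_le_mul_of_nonneg_right hsq hX0) hkeyR
  have h2 : (r : ℝ) * ((4 * q * (2 * u) : ℕ) : ℝ) + 2 ≤ (Real.sqrt n)⁻¹ * D := by
    rw [inv_mul_eq_div, le_div_iff₀ hsq0, mul_comm]
    exact h1
  have h3 : (r : ℝ) * Real.log ((2 * u).factorial : ℝ) ≤
      r * (((4 * q * (2 * u) : ℕ) : ℝ) * Real.log 2) :=
    mul_le_mul_of_nonneg_left hlogfac (Nat.cast_nonneg r)
  have h4 := mul_le_mul_of_nonneg_right h2 hlog.le
  linarith only [h3, h4]

/-- lower bounds for sets without `k`-term progressions, `k` large, with a power saving in `n`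
over the constant of O'Bryant -/
theorem power : ∃ K : ℕ, ∀ k : ℕ, K ≤ k → ∀ n : ℕ, n = Nat.clog 2 k →
      ∃ N₀ : ℕ, ∀ N : ℕ, N₀ ≤ N → ∃ A : Finset ℕ, A ⊆ Finset.Icc 1 N ∧
        (∀ a d : ℕ, 0 < d → ¬ ∀ j < k, a + j * d ∈ A) ∧
        (N : ℝ) * Real.exp (-((n : ℝ) ^ ((23 : ℝ) / 24) * (2 : ℝ) ^ (((n : ℝ) - 1) / 2) *
          Real.log N ^ ((1 : ℝ) / n))) ≤ A.card :=
  pow_of P1

end Vale.Agent.P057.H829

end
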