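import Vale.Agent.P057.H829.Blk
import Vale.Agent.P057.H465.C
import Vale.Agent.P057.H203.TowFin

/-!
# P057 : the power saving with exponent `1 / 6`
-/

set_option linter.all false
set_option autoImplicit false

section

open Finset Vale.Agent.P057.Lower

namespace Vale.Agent.P057.H829

theorem cost_mono2 {k D : ℕ} {c c' : ℝ} (h : Cost k D c) (hc : c ≤ c') : Cost k D c' := by
  intro η hη
  obtain ⟨m0, hm⟩ := h η hη
  refine ⟨m0, fun p hp hpp => ?_⟩
  obtain ⟨U, h1, h2, h3⟩ := hm p hp hpp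
  exact ⟨U, h1, h2, le_trans (Real.exp_le_exp.2 (by linarith)) h3⟩

/-- the block with modulus `(v!) ^ D` -/
theorem cost_pow (v D k r L w : ℕ) (hv : 2 ≤ v) (hD : 1 ≤ D)
    (hr : D + 1 ≤ r * (v * (v - 1) / 2)) (hdL : r * (v * (v - 1) / 2) < L)
    (hk : v.factorial * L ≤ k) (hkD : v.factorial * (D + 2) + D + 2 ≤ k)
    (hw : L ^ ((r * (v * (v - 1) / 2)) * (r * (v * (v - 1) / 2))) < 2 ^ w)
    (hL : 2 * ((r * (v * (v - 1) / 2) : ℕ) : ℝ) ^ 2 *
      ((w + 1) * Real.log ((v.factorial ^ D : ℕ) : ℝ)) < L) :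
    Cost k D (r * Real.log v.factorial) := by
  have hN2 : 2 ≤ v.factorial := by
    calc 2 = Nat.factorial 2 := rfl
      _ ≤ v.factorial := Nat.factorial_le hv
  have hM : 2 ≤ v.factorial ^ D := le_trans hN2 (Nat.le_self_pow (by omega) _)
  have hr1 : 1 ≤ r := by
    rcases Nat.eq_zero_or_pos r with h | h
    · rw [h, Nat.zero_mul] at hr
      omega
    · exact h
  refine cost_block v r D k (v.factorial ^ D) L w hv hr hM hdL hk hw hL ?_
  refine ⟨v.factorial + 1, fun p hp hpp h hh u hu hd hper => ?_⟩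
  have hndvd : ¬ p ∣ v.factorial := fun hdv => by
    have := Nat.le_of_dvd (Nat.factorial_pos _) hdv
    omega
  have hcop : Nat.Coprime p (v.factorial ^ D) :=
    Nat.Coprime.pow_right D ((Nat.Prime.coprime_iff_not_dvd hpp).2 hndvd)
  have h2r : 2 ≤ v.factorial ^ r := le_trans hN2 (Nat.le_self_pow (by omega) _)
  have h2h : 2 * h < p := lt_of_le_of_lt (Nat.mul_le_mul_right h h2r) hh
  have hs : 2 ^ (D + 1) * h < p * v.factorial ^ D := by
    calc 2 ^ (D + 1) * h = (2 * h) * 2 ^ D := by ring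
      _ < p * 2 ^ D := Nat.mul_lt_mul_of_pos_right h2h (by positivity)
      _ ≤ p * v.factorial ^ D := Nat.mul_le_mul_left _ (Nat.pow_le_pow_left hN2 D)
  exact Vale.Agent.P057.H465.pieceC v.factorial D k p h (v.factorial ^ D) (by omega) hpp hndvd hcop
    dvd_rfl hs h2h hkD u hu hd hper

theorem q_big2 (q : ℕ) (hq : 36 ≤ q) : 2 ^ 26 * (23 * q) ≤ 2 ^ q := by
  induction q, hq using Nat.le_induction with
  | base => norm_num
  | succ l hl ih =>
    rw [pow_succ]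
    omega

theorem hnat6 (n l j t D X V w : ℕ) (hX : X ≤ 2 * D) (hD0 : 0 < D) (hDdef : D = 2 ^ j)
    (ht : t = 5 * j + 2 * l + 13) (htn : V + t + 1 ≤ n) (hnl : n < 2 ^ (l + 1))
    (hw : w = t * (X * X) + 1) : 2 * X ^ 2 * ((w + 1) * (D * V)) < 2 ^ t := by
    have h1 : X * X ≤ (2 * D) * (2 * D) := Nat.mul_le_mul hX hX
    have h2 : w + 1 ≤ 4 * n * (D * D) := by
      have h3 : t * (X * X) ≤ t * ((2 * D) * (2 * D)) := Nat.mul_le_mul_left _ h1
      have h4 : (t + 1) * (4 * (D * D)) ≤ n * (4 * (D * D)) :=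
        Nat.mul_le_mul_right _ (by omega)
      have h5 : 1 ≤ D * D := Nat.mul_pos hD0 hD0
      have h6 : t * ((2 * D) * (2 * D)) = t * (4 * (D * D)) := by ring
      have h7 : (t + 1) * (4 * (D * D)) = t * (4 * (D * D)) + 4 * (D * D) := by ring
      have h8 : n * (4 * (D * D)) = 4 * n * (D * D) := by ring
      omega
    have h9 : (w + 1) * (D * V) ≤ (4 * n * (D * D)) * (D * n) :=
      Nat.mul_le_mul h2 (Nat.mul_le_mul_left _ (by omega))
    have h10 : 2 * X ^ 2 ≤ 8 * (D * D) := by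
      have : 2 * X ^ 2 = 2 * (X * X) := by ring
      have h11 : 2 * ((2 * D) * (2 * D)) = 8 * (D * D) := by ring
      omega
    have hnn : n * n < 2 ^ (2 * l + 2) := by
      calc n * n < 2 ^ (l + 1) * 2 ^ (l + 1) :=
            Nat.mul_lt_mul_of_lt_of_le hnl hnl.le (by positivity)
        _ = 2 ^ (2 * l + 2) := by rw [← pow_add]; congr 1; omega
    calc 2 * X ^ 2 * ((w + 1) * (D * V))
        ≤ (8 * (D * D)) * ((4 * n * (D * D)) * (D * n)) := Nat.mul_le_mul h10 h9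
      _ = (n * n) * (2 ^ 5 * D ^ 5) := by ring
      _ < 2 ^ (2 * l + 2) * (2 ^ 5 * D ^ 5) := Nat.mul_lt_mul_of_pos_right hnn (by positivity)
      _ = 2 ^ (2 * l + 2 + (5 + j * 5)) := by rw [hDdef, ← pow_mul, ← pow_add, ← pow_add]
      _ ≤ 2 ^ t := Nat.pow_le_pow_right (by norm_num) (by omega)

theorem hreal6 (X w D V t f : ℕ) (hnat : 2 * X ^ 2 * ((w + 1) * (D * V)) < 2 ^ t)
    (hlogfac : Real.log (f : ℝ) ≤ (V : ℝ) * Real.log 2) :
    2 * ((X : ℕ) : ℝ) ^ 2 * (((w : ℝ) + 1) * Real.log ((f ^ D : ℕ) : ℝ)) < ((2 ^ t : ℕ) : ℝ) := by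
  have hlog1 : Real.log 2 ≤ 1 := by
    have := Real.log_two_lt_d9
    linarith only [this]
  have h1 : Real.log ((f ^ D : ℕ) : ℝ) ≤ (D : ℝ) * V := by
    rw [Nat.cast_pow, Real.log_pow]
    apply mul_le_mul_of_nonneg_left _ (Nat.cast_nonneg D)
    have : (V : ℝ) * Real.log 2 ≤ V * 1 := mul_le_mul_of_nonneg_left hlog1 (Nat.cast_nonneg V)
    linarith only [this, hlogfac]
  have h2 : ((2 * X ^ 2 * ((w + 1) * (D * V)) : ℕ) : ℝ) < ((2 ^ t : ℕ) : ℝ) := by
    exact_mod_cast hnat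
  refine lt_of_le_of_lt ?_ h2
  have h3 : ((2 * X ^ 2 * ((w + 1) * (D * V)) : ℕ) : ℝ) =
      2 * ((X : ℕ) : ℝ) ^ 2 * (((w : ℝ) + 1) * ((D : ℝ) * V)) := by
    push_cast
    ring
  rw [h3]
  exact mul_le_mul_of_nonneg_left (mul_le_mul_of_nonneg_left h1 (by positivity)) (by positivity)

theorem hkey6 (q u S P r D V : ℕ) (hu0 : 0 < u) (hqb : 2 ^ 26 * (23 * q) ≤ P)
    (huS : 2 ^ 23 * u = S * P) (hruu : r * (u * u) ≤ 2 * D) (hV : V = 23 * q * (2 * u)) :
    S * (r * V) ≤ D := by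
  have h2 : 92 * q * S ≤ u := by
    have h3 : 2 ^ 23 * (92 * q * S) ≤ 2 ^ 23 * u := by
      rw [huS]
      have h4 : S * (2 ^ 26 * (23 * q)) ≤ S * P := Nat.mul_le_mul_left S hqb
      have h5 : 2 ^ 23 * (92 * q * S) ≤ S * (2 ^ 26 * (23 * q)) := by
        have : S * (2 ^ 26 * (23 * q)) = 2 * (2 ^ 23 * (92 * q * S)) := by ring
        omega
      omega
    exact Nat.le_of_mul_le_mul_left h3 (by positivity)
  have h1 : u * (S * (r * V)) ≤ u * D := by
    have h3 : u * (S * (r * V)) = 46 * q * S * (r * (u * u)) := by rw [hV]; ring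
    have h4 : 46 * q * S * (r * (u * u)) ≤ 46 * q * S * (2 * D) := Nat.mul_le_mul_left _ hruu
    have h5 : 46 * q * S * (2 * D) = (92 * q * S) * D := by ring
    have h6 : (92 * q * S) * D ≤ u * D := Nat.mul_le_mul_right D h2
    omega
  exact Nat.le_of_mul_le_mul_left h1 hu0

/-- the cost at the level `2 ^ j` -/
theorem level (n l q j k : ℕ) (hln : 2 ^ l ≤ n) (hnl : n < 2 ^ (l + 1)) (hq : q = l / 24)
    (hq36 : 36 ≤ q) (hk : 2 ^ (n - 1) < k) (hj1 : 2 * l + 1 ≤ j) (hj2 : 100 * j ≤ 19 * (n - 1)) :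
    Cost k (2 ^ j) (((2 ^ (22 * q + 22) : ℕ) : ℝ)⁻¹ * ((2 ^ j : ℕ) : ℝ) * Real.log 2) := by
  have hqb := q_big2 q hq36
  have hlog : 0 < Real.log 2 := Real.log_pos (by norm_num)
  have hlog1 : Real.log 2 ≤ 1 := by
    have := Real.log_two_lt_d9
    linarith only [this]
  -- the parameters
  obtain ⟨u, hu⟩ : ∃ u, u = 2 ^ (23 * q - 1) := ⟨_, rfl⟩
  obtain ⟨D, hDdef⟩ : ∃ D, D = 2 ^ j := ⟨_, rfl⟩
  obtain ⟨S, hS⟩ : ∃ S, S = 2 ^ (22 * q + 22) := ⟨_, rfl⟩
  obtain ⟨P, hP⟩ : ∃ P, P = 2 ^ q := ⟨_, rfl⟩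
  rw [← hP] at hqb
  have hS0 : 0 < S := by rw [hS]; positivity
  have hu0 : 0 < u := by rw [hu]; positivity
  have hD0 : 0 < D := by rw [hDdef]; positivity
  have h2u : 2 * u = 2 ^ (23 * q) := by
    rw [hu, ← pow_succ']
    congr 1
    omega
  have huS : 2 ^ 23 * u = S * P := by
    have h1 : 2 * (2 ^ 23 * u) = 2 * (S * P) := by
      calc 2 * (2 ^ 23 * u) = 2 ^ 23 * (2 * u) := by ring
        _ = 2 ^ (23 + 23 * q) := by rw [h2u, ← pow_add]
        _ = 2 ^ (1 + (22 * q + 22) + q) := by congr 1; omega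
        _ = 2 * (S * P) := by rw [hS, hP, pow_add, pow_add, pow_one]; ring
    omega
  have huu : 2 * u * (2 * u) ≤ D := by
    rw [h2u, ← pow_add, hDdef]
    exact Nat.pow_le_pow_right (by norm_num) (by omega)
  obtain ⟨E, hE⟩ : ∃ E, E = (2 * u) * (2 * u - 1) / 2 := ⟨_, rfl⟩
  have hE' : E = u * (2 * u - 1) := by
    rw [hE, mul_assoc, Nat.mul_div_cancel_left _ (by norm_num)]
  have hE1 : u * u ≤ E := by
    rw [hE']
    exact Nat.mul_le_mul_left u (by omega)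
  have hE2 : E ≤ D := by
    rw [hE']
    calc u * (2 * u - 1) ≤ (2 * u) * (2 * u) := Nat.mul_le_mul (by omega) (by omega)
      _ ≤ D := huu
  have hE0 : 0 < E := lt_of_lt_of_le (Nat.mul_pos hu0 hu0) hE1
  obtain ⟨r, hr⟩ : ∃ r, r = D / E + 1 := ⟨_, rfl⟩
  have hrE : D + 1 ≤ r * E := by
    have := Nat.lt_mul_div_succ D hE0
    rw [hr, mul_comm]
    exact this
  have hrE2 : r * E ≤ 2 * D := by
    have := Nat.div_mul_le_self D E
    rw [hr, Nat.add_mul, Nat.one_mul]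
    omega
  have hruu : r * (u * u) ≤ 2 * D := le_trans (Nat.mul_le_mul_left r hE1) hrE2
  -- the factorial
  obtain ⟨V, hV⟩ : ∃ V, V = 23 * q * (2 * u) := ⟨_, rfl⟩
  have hfac : (2 * u).factorial ≤ 2 ^ V := by
    calc (2 * u).factorial ≤ (2 * u) ^ (2 * u) := Nat.factorial_le_pow _
      _ = 2 ^ V := by
        rw [hV]
        conv_lhs => rw [h2u]
        rw [← pow_mul, h2u]
  have hVn : 20 * (V + 2 * l + 13) + 1 ≤ n := by
    have h1 : 20 * (V + 2 * l + 13) + 1 ≤ 2 ^ (24 * q) := by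
      have e : 2 ^ (24 * q) = P * (2 * u) := by
        rw [hP, h2u, ← pow_add]
        congr 1
        omega
      rw [e]
      have h2 : 40 * l + 261 ≤ P := by omega
      have h3 : 460 * q + 1 ≤ P := by omega
      have h4 : 40 * l + 261 ≤ P * u := le_trans h2 (Nat.le_mul_of_pos_right _ hu0)
      have h5 : 920 * q * u ≤ P * u := Nat.mul_le_mul_right u (by omega)
      have h6 : 20 * V = 920 * q * u := by rw [hV]; ring
      have h7 : P * (2 * u) = P * u + P * u := by ring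
      omega
    have h2 : 2 ^ (24 * q) ≤ 2 ^ l := Nat.pow_le_pow_right (by norm_num) (by omega)
    omega
  obtain ⟨t, ht⟩ : ∃ t, t = 5 * j + 2 * l + 13 := ⟨_, rfl⟩
  have htn : V + t + 1 ≤ n := by omega
  have hLk : (2 * u).factorial * 2 ^ t ≤ k := by
    have h1 : (2 * u).factorial * 2 ^ t ≤ 2 ^ V * 2 ^ t := Nat.mul_le_mul_right _ hfac
    rw [← pow_add] at h1
    have h2 : 2 ^ (V + t) ≤ 2 ^ (n - 1) := Nat.pow_le_pow_right (by norm_num) (by omega)
    omega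
  have hL8 : 8 * D ≤ 2 ^ t := by
    rw [hDdef, show (8 : ℕ) = 2 ^ 3 by norm_num, ← pow_add]
    exact Nat.pow_le_pow_right (by norm_num) (by omega)
  have hkD : (2 * u).factorial * (D + 2) + D + 2 ≤ k := by
    have h1 : 1 ≤ (2 * u).factorial := Nat.factorial_pos _
    have h2 : D + 2 ≤ (2 * u).factorial * (D + 2) := Nat.le_mul_of_pos_left _ h1
    have h3 : (2 * u).factorial * (2 * (D + 2)) ≤ (2 * u).factorial * 2 ^ t :=
      Nat.mul_le_mul_left _ (by omega)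
    have h4 : (2 * u).factorial * (2 * (D + 2)) = 2 * ((2 * u).factorial * (D + 2)) := by ring
    omega
  obtain ⟨w, hw⟩ : ∃ w, w = t * ((r * E) * (r * E)) + 1 := ⟨_, rfl⟩
  have hLw : (2 ^ t) ^ ((r * E) * (r * E)) < 2 ^ w := by
    rw [← pow_mul, hw]
    exact Nat.pow_lt_pow_right (by norm_num) (Nat.lt_succ_self _)
  have hlogfac : Real.log ((2 * u).factorial : ℝ) ≤ (V : ℝ) * Real.log 2 := by
    have h1 : ((2 * u).factorial : ℝ) ≤ (2 : ℝ) ^ V := by exact_mod_cast hfac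
    calc Real.log ((2 * u).factorial : ℝ) ≤ Real.log ((2 : ℝ) ^ V) :=
          Real.log_le_log (by exact_mod_cast Nat.factorial_pos _) h1
      _ = _ := Real.log_pow _ _
  -- the window
  have hnat := hnat6 n l j t D (r * E) V w hrE2 hD0 hDdef ht htn hnl hw
  have hreal := hreal6 (r * E) w D V t (2 * u).factorial hnat hlogfac
  have hcost : Cost k D (r * Real.log (2 * u).factorial) :=
    cost_pow (2 * u) D k r (2 ^ t) w (by omega) (by omega)
      (by rw [← hE]; exact hrE) (by rw [← hE]; omega) hLk hkD (by rw [← hE]; exact hLw)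
      (by rw [← hE]; exact hreal)
  rw [← hDdef, ← hS]
  refine cost_mono2 hcost ?_
  -- the saving
  have hkey : S * (r * V) ≤ D := hkey6 q u S P r D V hu0 hqb huS hruu hV
  have hSR : (0 : ℝ) < S := by exact_mod_cast hS0
  have hkeyR : (S : ℝ) * ((r : ℝ) * (V : ℝ)) ≤ D := by exact_mod_cast hkey
  have h2 : (r : ℝ) * (V : ℝ) ≤ (S : ℝ)⁻¹ * D := by
    rw [inv_mul_eq_div, le_div_iff₀ hSR, mul_comm]
    exact hkeyR
  have h3 : (r : ℝ) * Real.log ((2 * u).factorial : ℝ) ≤ r * ((V : ℝ) * Real.log 2) :=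
    mul_le_mul_of_nonneg_left hlogfac (Nat.cast_nonneg r)
  have h4 := mul_le_mul_of_nonneg_right h2 hlog.le
  linarith only [h3, h4]

/-- the tower when all levels `A ≤ j ≤ B` have the gain `G` -/
theorem asy_of2 (n k A B : ℕ) (hn : 2 ≤ n) (hnk : 2 ^ (n - 1) < k) (hB : B + 2 ≤ n)
    (G x : ℝ) (hG0 : 0 < G) (hG1 : G ≤ 1)
    (H : ∀ j, A ≤ j → j ≤ B → Cost k (2 ^ j) (G * ((2 ^ j : ℕ) : ℝ) * Real.log 2))
    (hx : G ^ (B + 1 - A) ≤ x) :
    Asy k 1 n (x * 2 ^ (n * (n - 1) / 2) * Real.log 2 ^ (n - 1)) := by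
  have hlog : 0 < Real.log 2 := Real.log_pos (by norm_num)
  let good : ℕ → Prop := fun j => A ≤ j ∧ j ≤ B
  classical
  let e : ℕ → ℝ := fun j => if good j then G else 1
  have he0 : ∀ j, 0 < e j := by
    intro j
    simp only [e]
    split_ifs
    · exact hG0
    · exact one_pos
  have hcost : ∀ j, j + 2 ≤ n → 0 < e j * (((2 ^ j : ℕ) : ℝ) * Real.log 2) ∧
      Cost k (2 ^ j) (e j * (((2 ^ j : ℕ) : ℝ) * Real.log 2)) := by
    intro j hj
    refine ⟨mul_pos (he0 j) (mul_pos (by positivity) hlog), ?_⟩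
    by_cases hg : good j
    · have h1 : e j = G := if_pos hg
      rw [h1]
      have h2 := H j hg.1 hg.2
      rw [mul_assoc] at h2
      exact h2
    · have h1 : e j = 1 := if_neg hg
      rw [h1, one_mul]
      exact cost_interval k (2 ^ j)
  have hT := H203.tower k n (by omega) hnk (fun j => e j * (((2 ^ j : ℕ) : ℝ) * Real.log 2)) hcost
  refine H203.Asy.mono' hT (Finset.prod_nonneg (fun j _ => ?_)) ?_
  · have := he0 j
    positivity
  · have e1 : ∏ j ∈ range (n - 1), (2 * (e j * (((2 ^ j : ℕ) : ℝ) * Real.log 2))) =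
        (∏ j ∈ range (n - 1), e j) * ∏ j ∈ range (n - 1),
          (2 * (((2 ^ j : ℕ) : ℝ) * Real.log 2)) := by
      rw [← Finset.prod_mul_distrib]
      apply Finset.prod_congr rfl
      intro j _
      ring
    rw [e1, H203.prod_two_pow, mul_assoc]
    apply mul_le_mul_of_nonneg_right _ (by positivity)
    set S : Finset ℕ := (range (n - 1)).filter good with hS
    have e2 : ∏ j ∈ range (n - 1), e j = G ^ S.card := by
      simp only [e]
      rw [Finset.prod_ite, Finset.prod_const, Finset.prod_const_one, mul_one]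
    have hScard : B + 1 - A ≤ S.card := by
      have h1 : Finset.Icc A B ⊆ S := by
        intro j hj
        rw [Finset.mem_Icc] at hj
        rw [hS, Finset.mem_filter, Finset.mem_range]
        exact ⟨by omega, hj.1, hj.2⟩
      have h2 := Finset.card_le_card h1
      rw [Nat.card_Icc] at h2
      exact h2
    rw [e2]
    exact le_trans (pow_le_pow_of_le_one hG0.le hG1 hScard) hx

/-- lower bounds for sets without `k`-term progressions, `k` large: O'Bryant's constant times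
`n ^ (-1 / 6)` -/
theorem quant6 : ∃ K : ℕ, ∀ k : ℕ, K ≤ k → ∀ n : ℕ, n = Nat.clog 2 k →
      ∃ N₀ : ℕ, ∀ N : ℕ, N₀ ≤ N → ∃ A : Finset ℕ, A ⊆ Finset.Icc 1 N ∧
        (∀ a d : ℕ, 0 < d → ¬ ∀ j < k, a + j * d ∈ A) ∧
        (N : ℝ) * Real.exp (-((n : ℝ) ^ (-(1 : ℝ) / 6) *
          ((n : ℝ) * (2 : ℝ) ^ (((n : ℝ) - 1) / 2) *
            Real.log 2 ^ (((n : ℝ) - 1) / n)) * Real.log N ^ ((1 : ℝ) / n))) ≤ A.card := by
  obtain ⟨b, hb⟩ : ∃ b : ℕ, b = 864 := ⟨_, rfl⟩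
  refine ⟨2 ^ (2 ^ b) + 1, fun k hk n hn => ?_⟩
  have hkbig : 2 ^ (2 ^ b) < k := hk
  have hk2 : 2 ≤ k := by
    have : 1 ≤ 2 ^ (2 ^ b) := Nat.one_le_two_pow
    omega
  have hnk : 2 ^ (n - 1) < k := by
    rw [hn]; exact Nat.pow_pred_clog_lt_self (by norm_num) (by omega)
  have hnbig : 2 ^ b < n := by
    by_contra hcon
    push Not at hcon
    have h3 : k ≤ 2 ^ Nat.clog 2 k := Nat.le_pow_clog (by norm_num) k
    rw [← hn] at h3
    have h4 : 2 ^ n ≤ 2 ^ (2 ^ b) := Nat.pow_le_pow_right (by norm_num) hcon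
    omega
  have hn0 : n ≠ 0 := by
    intro h
    rw [h] at hnbig
    exact Nat.not_lt_zero _ hnbig
  obtain ⟨l, hl⟩ : ∃ l, l = Nat.log 2 n := ⟨_, rfl⟩
  have hlb : b ≤ l := by
    rw [hl]
    exact Nat.le_log_of_pow_le (by norm_num) hnbig.le
  have hln : 2 ^ l ≤ n := by
    rw [hl]
    exact Nat.pow_log_le_self 2 hn0
  have hnl : n < 2 ^ (l + 1) := by
    rw [hl]
    exact Nat.lt_pow_succ_log_self (by norm_num) n
  clear hl hkbig hk hnbig
  obtain ⟨q, hq⟩ : ∃ q, q = l / 24 := ⟨_, rfl⟩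
  have hq36 : 36 ≤ q := by omega
  have hqb := q_big2 q hq36
  have hnq : 2 ^ 26 * (23 * q) * (2 ^ 26 * (23 * q)) ≤ n := by
    calc 2 ^ 26 * (23 * q) * (2 ^ 26 * (23 * q)) ≤ 2 ^ q * 2 ^ q := Nat.mul_le_mul hqb hqb
      _ = 2 ^ (q + q) := (pow_add _ _ _).symm
      _ ≤ 2 ^ l := Nat.pow_le_pow_right (by norm_num) (by omega)
      _ ≤ n := hln
  -- the number of levels
  obtain ⟨m, hm⟩ : ∃ m, m = 19 * (n - 1) / 100 + 1 - (2 * l + 1) := ⟨_, rfl⟩
  have hqq : q * 36 ≤ q * q := Nat.mul_le_mul_left q hq36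
  have hnqq : 2 ^ 20 * (q * q) ≤ n := by
    have : 2 ^ 26 * (23 * q) * (2 ^ 26 * (23 * q)) = 2 ^ 52 * 529 * (q * q) := by ring
    omega
  have hm100 : 19 * n ≤ 100 * m + 118 + 200 * l := by omega
  have hlev : (4 * q + 5) * n ≤ (22 * q + 22) * m := by
    have h1 : (22 * q + 22) * (19 * n) ≤ (22 * q + 22) * (100 * m + 118 + 200 * l) :=
      Nat.mul_le_mul_left _ hm100
    have h2 : (22 * q + 22) * (118 + 200 * l) ≤ n := by
      have h3 : 118 + 200 * l ≤ 5000 * q := by omega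
      have h4 : 22 * q + 22 ≤ 23 * q := by omega
      have h5 : (22 * q + 22) * (118 + 200 * l) ≤ (23 * q) * (5000 * q) := Nat.mul_le_mul h4 h3
      have h6 : (23 * q) * (5000 * q) = 115000 * (q * q) := by ring
      omega
    have h7 : (22 * q + 22) * (19 * n) = 418 * (q * n) + 418 * n := by ring
    have h8 : (22 * q + 22) * (100 * m + 118 + 200 * l) =
        100 * ((22 * q + 22) * m) + (22 * q + 22) * (118 + 200 * l) := by ring
    have h9 : (4 * q + 5) * n = 4 * (q * n) + 5 * n := by ring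
    have h10 : 36 * n ≤ q * n := Nat.mul_le_mul_right n hq36
    omega
  have hnR : (1 : ℝ) ≤ n := by
    have : 1 ≤ n := by omega
    exact_mod_cast this
  have hnpos : (0 : ℝ) < n := by linarith only [hnR]
  have hG0 : (0 : ℝ) < ((2 ^ (22 * q + 22) : ℕ) : ℝ)⁻¹ := by positivity
  have hG1 : ((2 ^ (22 * q + 22) : ℕ) : ℝ)⁻¹ ≤ 1 := by
    apply inv_le_one_of_one_le₀
    exact_mod_cast Nat.one_le_two_pow
  have hc : ((2 : ℝ) ^ (4 * q + 5))⁻¹ ≤ (n : ℝ) ^ (-(1 : ℝ) / 6) / 2 := by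
    have h1 : (n : ℝ) ≤ (2 : ℝ) ^ (24 * q + 24) := by
      have : n ≤ 2 ^ (24 * q + 24) :=
        le_trans hnl.le (Nat.pow_le_pow_right (by norm_num) (by omega))
      exact_mod_cast this
    have h2 : ((2 : ℝ) ^ (24 * q + 24)) ^ (-(1 : ℝ) / 6) ≤ (n : ℝ) ^ (-(1 : ℝ) / 6) :=
      Real.rpow_le_rpow_of_nonpos hnpos h1 (by norm_num)
    have h3 : ((2 : ℝ) ^ (24 * q + 24)) ^ (-(1 : ℝ) / 6) = ((2 : ℝ) ^ (4 * q + 4))⁻¹ := by
      rw [← Real.rpow_natCast 2 (24 * q + 24), ← Real.rpow_mul (by norm_num),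
        ← Real.rpow_natCast 2 (4 * q + 4), ← Real.rpow_neg (by norm_num)]
      congr 1
      push_cast
      ring
    rw [h3] at h2
    have h4 : ((2 : ℝ) ^ (4 * q + 5))⁻¹ = ((2 : ℝ) ^ (4 * q + 4))⁻¹ / 2 := by
      rw [show 4 * q + 5 = (4 * q + 4) + 1 by ring, pow_succ, mul_inv]
      ring
    rw [h4]
    linarith only [h2]
  have hx : (((2 ^ (22 * q + 22) : ℕ) : ℝ)⁻¹) ^ (19 * (n - 1) / 100 + 1 - (2 * l + 1)) ≤
      ((n : ℝ) ^ (-(1 : ℝ) / 6) / 2) ^ n := by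
    rw [← hm]
    have h1 : (((2 ^ (22 * q + 22) : ℕ) : ℝ)⁻¹) ^ m = ((2 : ℝ) ^ ((22 * q + 22) * m))⁻¹ := by
      rw [inv_pow]
      congr 1
      push_cast
      rw [← pow_mul]
    rw [h1]
    calc ((2 : ℝ) ^ ((22 * q + 22) * m))⁻¹ ≤ ((2 : ℝ) ^ ((4 * q + 5) * n))⁻¹ := by
          apply inv_anti₀ (by positivity)
          exact pow_le_pow_right₀ (by norm_num) hlev
      _ = (((2 : ℝ) ^ (4 * q + 5))⁻¹) ^ n := by
          rw [inv_pow, ← pow_mul]
      _ ≤ _ := pow_le_pow_left₀ (by positivity) hc n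
  have hA := asy_of2 n k (2 * l + 1) (19 * (n - 1) / 100) (by omega) hnk (by omega) _ _ hG0 hG1
    (fun j hj1 hj2 => level n l q j k hln hnl hq hq36 hnk hj1 (by omega)) hx
  obtain ⟨N0, hN0⟩ := hA 1 one_pos
  refine ⟨N0, fun N hN => ?_⟩
  have h := hN0 N hN
  rw [H203.expo n (by omega) ((n : ℝ) ^ (-(1 : ℝ) / 6)) (Real.log N) (by positivity)
    (Real.log_natCast_nonneg N)] at h
  exact H203.nat_of_dens h

end Vale.Agent.P057.H829

end
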